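import Vale.Agent.P092.H534.Cart3
import Vale.Agent.P092.H776.NW3

/-!
P092 (helper534), one simple factor: the fields `nrm`, `nrv` of `H859.CL.Sys` for the wall element
`bw w` of `SL_3(k)` and a target `q : Γ →* SL_3(k')` over any local field `k'`, in terms of the
gaps `ga`, `gb` of `GK1`.
-/

set_option linter.all false

open scoped InnerProductSpace ENNReal
open Matrix Filter Topology MeasureTheory ContinuousLinearMap

namespace Vale.Agent.P092.H534.GK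

open Vale.Agent.P092.SD (G3 bw nm)
open Vale.Agent.P092.H515 (GSys start2)
open Vale.Agent.P092.H933 (LocK)

/-! ### Near-wall mass -/

open Vale.Agent.P092.H761 (SharpData GChain big mem_big Geo Gaps CovFam)
open Vale.Agent.P092.H538 (ind ind_pos ind_neg ind_nonneg abs_ind_le)
open Vale.Agent.P092.H859.CL (BB)
open Vale.Agent.P092.H160 Vale.Agent.P092.H432 Vale.Agent.P092.H132
open Vale.Agent.P092.H701 (HChain tor dg)

section abs

variable {Γ 𝔾 : Type} [Group Γ] [DecidableEq Γ] [Group 𝔾] {t : ℝ}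
  {mass : 𝔾 → (Γ → ℝ) → ℝ} {Cpt : Set 𝔾 → Prop} {Ping : (p : ℕ) → (Fin p → 𝔾) → Prop}
  {m : ℕ} {b : Fin m → ℕ → 𝔾} {𝒦 : Fin m → Set 𝔾}

/-- **Near-wall, `SL_3(k)`**: along the first direction of a chain of length `≥ 2`, the mass of
the elements with two large gaps is small. -/
theorem nw_absK {k : Type} [NontriviallyNormedField k] [ProperSpace k] (hk : LocK k)
    (h : SharpData t mass Cpt Ping) (hch : GChain Cpt Ping m b 𝒦) (hm : 0 < m)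
    (hnm : 2 ≤ m) (q : Γ →* G3 k) (disc : ∀ C : ℝ, {γ : Γ | nm (q γ) ≤ C}.Finite)
    {ε : ℝ} (hε : 0 < ε) : ∃ R : ℝ, ∀ N, mass (b ⟨0, hm⟩ N)
      (ind fun g => g ∈ BB (fun γ => ga (q γ)) (fun γ => gb (q γ)) R) ≤ ε := by
  classical
  obtain ⟨gap, w, hsys, hw, C, hC⟩ := gsysK hk q
  have hfin : ∀ R : ℝ, {g | w g ≤ R}.Finite := fun R => by
    obtain ⟨R', hR'⟩ := hw R
    exact (disc R').subset fun g hg => hR' g hg
  have hg := hsys.gaps hfin (fun j : Fin 2 => j)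
    (fun R => ⟨R, fun i j hij g hg => by rw [← hij]; exact hg⟩)
  obtain ⟨R, hR⟩ := start2 h hg (fun θ _ _ => hsys.geo' hfin θ) hch hnm hm hε
  refine ⟨R + C, fun N => (h.ind_mono _ ?_).trans (hR N)⟩
  intro g hgm
  have h1 : R + C < ga (q g) := hgm.1
  have h2 : R + C < gb (q g) := hgm.2
  obtain ⟨h3, h4⟩ := hC g
  exact Finset.one_lt_card.2 ⟨0, mem_big.2 ⟨_, rfl, by linarith⟩, 1,
    mem_big.2 ⟨_, rfl, by linarith⟩, by decide⟩

end abs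

section nrm

variable {E : Type} [Group E] [TopologicalSpace E] [IsTopologicalGroup E] [LocallyCompactSpace E]
  [SecondCountableTopology E] [T2Space E] [MeasurableSpace E] [BorelSpace E]
  (Λ : Subgroup E) [DiscreteTopology Λ] [MeasurableSpace (E ⧸ Λ)] [BorelSpace (E ⧸ Λ)]
  (ν : Measure (E ⧸ Λ)) [IsProbabilityMeasure ν] (hν : ∀ g : E, ν.map (fun x => g • x) = ν)
  {Γ Q ι : Type} [Group Γ] [Countable Γ] [Group Q] [Countable Q] [Fintype ι] {t : ℝ}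
  {R : Λ → (Ell2 ((Γ × Q) × ι) →L[ℂ] Ell2 ((Γ × Q) × ι))}
  {E0 : Set Λ → (Ell2 ((Γ × Q) × ι) →L[ℂ] Ell2 ((Γ × Q) × ι))}
  {k' : Type} [NontriviallyNormedField k'] [ProperSpace k']

/-- `nrm` along one direction. -/
theorem nrm_chainK (hk : LocK k') (hR : ARep t R) (hE : CovFam R E0)
    (hq : ∀ A (q : Q), E0 A * lx ((1 : Γ), q) = lx ((1 : Γ), q) * E0 A)
    {m : ℕ} (C : HChain E m) (hm : 0 < m) (h2 : 2 ≤ m) (q : Γ →* G3 k')
    (disc : ∀ C : ℝ, {γ : Γ | nm (q γ) ≤ C}.Finite)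
    {ε : ℝ} (hε : 0 < ε) : ∃ r : ℝ, ∀ N,
      massX (H538.fst (H790.baseL (H85.cdat ν hν).μ (Γ × Q) ι)) (H790.Ri (H85.cdat ν hν) R)
        (C.b ⟨0, hm⟩ N) (ind fun γ => γ ∈ BB (fun γ => ga (q γ)) (fun γ => gb (q γ)) r) ≤ ε := by
  classical
  exact nw_absK hk (H761.sharpCoef Λ ν hν hR hE hq) (H261.gchain_of_hchain C) hm h2 q disc hε

/-- **`nrm`** for the group generated by the wall element `b`. -/
theorem nrm_zpowersK (hk : LocK k') (hR : ARep t R) (hE : CovFam R E0)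
    (hq : ∀ A (q : Q), E0 A * lx ((1 : Γ), q) = lx ((1 : Γ), q) * E0 A)
    {m : ℕ} (C C' : HChain E m) (hm : 0 < m) (h2 : 2 ≤ m) {b : E}
    (hC : ∀ N, C.b ⟨0, hm⟩ N = b ^ N) (hC' : ∀ N, C'.b ⟨0, hm⟩ N = b⁻¹ ^ N)
    (q : Γ →* G3 k') (disc : ∀ C : ℝ, {γ : Γ | nm (q γ) ≤ C}.Finite)
    {ε : ℝ} (hε : 0 < ε) : ∃ r : ℝ, ∀ u ∈ Subgroup.zpowers b,
      massX (H538.fst (H790.baseL (H85.cdat ν hν).μ (Γ × Q) ι)) (H790.Ri (H85.cdat ν hν) R)
        u (ind fun γ => γ ∈ BB (fun γ => ga (q γ)) (fun γ => gb (q γ)) r) ≤ ε := by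
  classical
  have hd := H761.sharpCoef Λ ν hν hR hE hq
  obtain ⟨r, hr⟩ := nrm_chainK Λ ν hν hk hR hE hq C hm h2 q disc hε
  obtain ⟨r', hr'⟩ := nrm_chainK Λ ν hν hk hR hE hq C' hm h2 q disc hε
  have mono : ∀ (r₁ r₂ : ℝ) (u : E), r₁ ≤ r₂ →
      massX (H538.fst (H790.baseL (H85.cdat ν hν).μ (Γ × Q) ι)) (H790.Ri (H85.cdat ν hν) R)
        u (ind fun γ => γ ∈ BB (fun γ => ga (q γ)) (fun γ => gb (q γ)) r₂) ≤
      massX (H538.fst (H790.baseL (H85.cdat ν hν).μ (Γ × Q) ι)) (H790.Ri (H85.cdat ν hν) R)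
        u (ind fun γ => γ ∈ BB (fun γ => ga (q γ)) (fun γ => gb (q γ)) r₁) := fun r₁ r₂ u h =>
    hd.ind_mono u (P := fun γ => γ ∈ BB (fun γ => ga (q γ)) (fun γ => gb (q γ)) r₂)
      (Q := fun γ => γ ∈ BB (fun γ => ga (q γ)) (fun γ => gb (q γ)) r₁)
      fun γ hγ => H859.CL.BB_mono h hγ
  refine ⟨max r r', ?_⟩
  rintro _ ⟨z, rfl⟩
  obtain ⟨N, rfl | rfl⟩ := z.eq_nat_or_neg
  · have h0 := hr N
    rw [hC] at h0
    have h1 := (mono _ _ (b ^ N) (le_max_left r r')).trans h0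
    simpa using h1
  · have h0 := hr' N
    rw [hC'] at h0
    have h1 := (mono _ _ (b⁻¹ ^ N) (le_max_right r r')).trans h0
    simpa using h1

end nrm

/-! ### The instances -/

open Vale.Agent.P092.H790 (CData Fld fld_comp Ri ri_ae ae_comp act_inv baseL)
open Vale.Agent.P092.H357 (B2 Gen BdL2)
open Vale.Agent.P092.H776.NW (bw_eq_tor chW chWInv chW_b chWInv_b nrv_abs)

section bb

variable {k' : Type} [NontriviallyNormedField k'] {Γ : Type} [Group Γ]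

theorem bbK_antitone (q : Γ →* G3 k') : Antitone (BB (fun γ => ga (q γ)) (fun γ => gb (q γ))) :=
  fun _ _ h => H859.CL.BB_mono h

/-- Translation of the regular sets. -/
theorem bbK_trans (q : Γ →* G3 k') (γ : Γ) (r : ℝ) :
    ∃ r', ∀ g ∈ BB (fun γ => ga (q γ)) (fun γ => gb (q γ)) r',
      γ⁻¹ * g ∈ BB (fun γ => ga (q γ)) (fun γ => gb (q γ)) r := by
  obtain ⟨C, hC⟩ := gap_qi (q γ⁻¹) 1
  refine ⟨r + C, fun g hg => ?_⟩
  have h := hC (q g)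
  rw [mul_one, ← map_mul] at h
  have h1 := (abs_le.1 h.1).1
  have h2 := (abs_le.1 h.2).1
  have h3 : r + C < ga (q g) := hg.1
  have h4 : r + C < gb (q g) := hg.2
  exact ⟨by change r < ga (q (γ⁻¹ * g)); linarith, by change r < gb (q (γ⁻¹ * g)); linarith⟩

end bb

section inst

variable {k : Type} [NontriviallyNormedField k] [ProperSpace k]
  [MeasurableSpace (G3 k)] [BorelSpace (G3 k)]
  (Λ : Subgroup (G3 k)) [DiscreteTopology Λ] [MeasurableSpace (G3 k ⧸ Λ)] [BorelSpace (G3 k ⧸ Λ)]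
  (ν : Measure (G3 k ⧸ Λ)) [IsProbabilityMeasure ν]
  (hν : ∀ g : G3 k, ν.map (fun x => g • x) = ν)
  {Γ Q ι : Type} [Group Γ] [Countable Γ] [Group Q] [Countable Q] [Fintype ι] {t : ℝ}
  {R : Λ → (Ell2 ((Γ × Q) × ι) →L[ℂ] Ell2 ((Γ × Q) × ι))}
  {E0 : Set Λ → (Ell2 ((Γ × Q) × ι) →L[ℂ] Ell2 ((Γ × Q) × ι))}
  {k' : Type} [NontriviallyNormedField k'] [ProperSpace k']

/-- **`nrm`** for `A = ⟨bw w⟩`, target over any local field. -/
theorem nrm_bwK [LocallyCompactSpace (G3 k)] [SecondCountableTopology (G3 k)]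
    (hk : LocK k') (hR : ARep t R) (hE : CovFam R E0)
    (hq : ∀ A (q : Q), E0 A * lx ((1 : Γ), q) = lx ((1 : Γ), q) * E0 A)
    {w : kˣ} (hw : ‖(w : k)‖ < 1) (q : Γ →* G3 k')
    (disc : ∀ C : ℝ, {γ : Γ | nm (q γ) ≤ C}.Finite)
    {ε : ℝ} (hε : 0 < ε) : ∃ r : ℝ, ∀ u ∈ Subgroup.zpowers (bw w : G3 k),
      massX (H538.fst (baseL (H85.cdat ν hν).μ (Γ × Q) ι)) (Ri (H85.cdat ν hν) R)
        u (ind fun γ => γ ∈ BB (fun γ => ga (q γ)) (fun γ => gb (q γ)) r) ≤ ε := by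
  have hw' : 1 < ‖((w⁻¹ : kˣ) : k)‖ := by
    rw [Units.val_inv_eq_inv_val, norm_inv]
    exact one_lt_inv_iff₀.2 ⟨norm_pos_iff.2 w.ne_zero, hw⟩
  rw [bw_eq_tor]
  exact nrm_zpowersK Λ ν hν hk hR hE hq (chW 2 hw' (Units.ne_zero _))
    (chWInv 2 hw' (Units.ne_zero _)) (by norm_num) le_rfl
    (fun N => chW_b 2 hw' _ (by norm_num) N)
    (fun N => chWInv_b 2 hw' _ (by norm_num) N) q disc hε

/-- **`nrv`** for `A = ⟨bw w⟩`, target over any local field. -/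
theorem nrv_bwK [LocallyCompactSpace (G3 k)] [SecondCountableTopology (G3 k)]
    (hk : LocK k') (hR : ARep t R) (hE : CovFam R E0)
    (hq : ∀ A (q : Q), E0 A * lx ((1 : Γ), q) = lx ((1 : Γ), q) * E0 A)
    {w : kˣ} (hw : ‖(w : k)‖ < 1) (q : Γ →* G3 k')
    (disc : ∀ C : ℝ, {γ : Γ | nm (q γ) ≤ C}.Finite)
    {ξ : Lp (Ell2 ((Γ × Q) × ι)) 2 (H85.cdat ν hν).μ}
    (hξ : ξ ∈ BdL2 (H85.cdat ν hν).μ Γ Q ι) {ε : ℝ} (hε : 0 < ε) :
    ∃ r : ℝ, ∀ u ∈ Subgroup.zpowers (bw w : G3 k),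
      ‖(H538.fst (baseL (H85.cdat ν hν).μ (Γ × Q) ι)).mp
        (ind fun γ => γ ∈ BB (fun γ => ga (q γ)) (fun γ => gb (q γ)) r)
          (Ri (H85.cdat ν hν) R u ξ)‖ ≤ ε := by
  have : Countable Λ := H790.countable_of_discrete Λ
  exact nrv_abs (H85.cdat ν hν) hR (bbK_antitone q) (bbK_trans q)
    (A := (Subgroup.zpowers (bw w : G3 k) : Set (G3 k)))
    (fun ε hε => nrm_bwK Λ ν hν hk hR hE hq hw q disc hε) hξ hε

end inst

end Vale.Agent.P092.H534.GK
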