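import Vale.Agent.P092.H534.GK2

/-!
P092 (helper534), one simple factor `SL_3(k)`, `k` any local field: the geometry `GeoF` of the wall
limits, part 3.
-/

set_option linter.all false

open scoped LinearAlgebra.Projectivization
open Filter Topology Matrix

namespace Vale.Agent.P092.H534.GK

open Vale.Agent.P092.SD (G3 PP pt nm NW tau)
open Vale.Agent.P092.H820 (pj pj_continuous wd pj_eq_iff wd_continuous)
open Vale.Agent.P092.H859.CL (BB FF cn SepP GeoF)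

section mat

variable {k : Type} [NontriviallyNormedField k]

theorem norm_single (b : Fin 3) : ‖(Pi.single b 1 : Fin 3 → k)‖ ≤ 1 := by
  rw [pi_norm_le_iff_of_nonneg zero_le_one]
  intro i
  by_cases h : i = b
  · subst h; rw [Pi.single_eq_same, norm_one]
  · rw [Pi.single_eq_of_ne h, norm_zero]; exact zero_le_one

theorem norm_mulVec_single (h : G3 k) (b : Fin 3) : ‖h.1 *ᵥ Pi.single b 1‖ ≤ nm h := by
  rw [pi_norm_le_iff_of_nonneg (nm_nonneg h)]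
  intro a
  rw [Matrix.mulVec_single_one]
  exact ent_le h a b

theorem nm_le_of_cols {h : G3 k} {C : ℝ} (hC : 0 ≤ C)
    (hh : ∀ b, ‖h.1 *ᵥ Pi.single b 1‖ ≤ C) : nm h ≤ C := by
  refine nm_le hC fun i j => ?_
  refine le_trans ?_ (hh j)
  have h1 := norm_le_pi_norm (h.1 *ᵥ Pi.single j 1) i
  rw [Matrix.mulVec_single_one] at h1
  rw [Matrix.mulVec_single_one]
  exact h1

theorem mul_mulVec (g h : G3 k) (z : Fin 3 → k) : (g * h).1 *ᵥ z = g.1 *ᵥ (h.1 *ᵥ z) := by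
  rw [Matrix.mulVec_mulVec]
  rfl

theorem nm_tau (h : G3 k) : nm (tau k h) = nm h⁻¹ := by
  have key : ∀ g : G3 k, nm (tau k g) ≤ nm g⁻¹ := fun g => by
    refine nm_le (nm_nonneg _) fun i j => ?_
    exact ent_le g⁻¹ j i
  refine le_antisymm (key h) ?_
  refine nm_le (nm_nonneg _) fun i j => ?_
  exact ent_le (tau k h) j i

theorem ga_tau (h : G3 k) : ga (tau k h) = gb h := by
  unfold ga gb
  rw [← map_inv, nm_tau, nm_tau, inv_inv]

theorem gb_tau (h : G3 k) : gb (tau k h) = ga h := by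
  unfold ga gb
  rw [← map_inv, nm_tau, nm_tau, inv_inv]

end mat

section geom

variable {k : Type} [NontriviallyNormedField k] [ProperSpace k]

/-- Stability of the attracting point. -/
theorem stab (s u : G3 k) {F : Type} [PseudoMetricSpace F] {f : PP k → F} (hf : Continuous f)
    {ε : ℝ} (hε : 0 < ε) : ∃ T : ℝ, ∀ x : G3 k, T ≤ ga x →
      dist (f (bpk (s * x * u))) (f (s • bpk x)) < ε := by
  obtain ⟨δ, hδ, h⟩ := uc hf hε
  obtain ⟨δ', hδ'⟩ : ∃ δ', δ' = min δ (1 / 2) := ⟨_, rfl⟩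
  have hd0 : 0 < δ' := by rw [hδ']; positivity
  have hd1 : δ' ≤ δ := by rw [hδ']; exact min_le_left _ _
  have hd2 : δ' ≤ 1 / 2 := by rw [hδ']; exact min_le_right _ _
  have ps := nm_pos s
  have pu := nm_pos u
  have ps' := nm_pos s⁻¹
  have pu' := nm_pos u⁻¹
  refine ⟨Real.log (81 * nm s * nm u * (nm s⁻¹ * nm u⁻¹) / δ'), fun x hx => ?_⟩
  have px := nm_pos x
  have px' := nm_pos x⁻¹
  rw [Real.log_le_iff_le_exp (by positivity), exp_ga, div_le_div_iff₀ hd0 px'] at hx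
  obtain ⟨y, hy⟩ : ∃ y, y = s * x * u := ⟨_, rfl⟩
  have py := nm_pos y
  obtain ⟨w, hw⟩ : ∃ w : Fin 3 → k, w = u.1 *ᵥ Pi.single (piv y).2 1 := ⟨_, rfl⟩
  have hwn : ‖w‖ ≤ nm u := by rw [hw]; exact norm_mulVec_single u _
  obtain ⟨c, hc⟩ : ∃ c, c = row x ⬝ᵥ w := ⟨_, rfl⟩
  have hy1 : y.1 = (s * x * u).1 := by rw [hy]
  have e1 : col y - c • (s.1 *ᵥ col x) = s.1 *ᵥ (x.1 *ᵥ w - (row x ⬝ᵥ w) • col x) := by
    rw [Matrix.mulVec_sub, Matrix.mulVec_smul, ← hc, col_eq y, hw, hy1, mul_mulVec, mul_mulVec]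
  have e2 : ‖col y - c • (s.1 *ᵥ col x)‖ ≤ 9 * nm s * nm u * (nm x⁻¹ / nm x) := by
    rw [e1]
    refine (norm_mulVec_le s _).trans ?_
    have h1 := rk_mulVec x w
    calc 3 * nm s * ‖x.1 *ᵥ w - (row x ⬝ᵥ w) • col x‖
        ≤ 3 * nm s * (3 * (nm x⁻¹ / nm x) * nm u) := by
          refine mul_le_mul_of_nonneg_left (h1.trans ?_) (by positivity)
          gcongr
      _ = _ := by ring
  have e3 : nm x ≤ 9 * nm s⁻¹ * nm u⁻¹ * nm y := by
    have h3 := nm_mul3 s⁻¹ y u⁻¹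
    have h4 : s⁻¹ * y * u⁻¹ = x := by rw [hy]; group
    rwa [h4] at h3
  have e4 : 9 * nm s * nm u * (nm x⁻¹ / nm x) ≤ δ' * nm y := by
    have h5 : 9 * nm s * nm u * (nm x⁻¹ / nm x) * (9 * nm s⁻¹ * nm u⁻¹) ≤ δ' * nm x := by
      rw [show 9 * nm s * nm u * (nm x⁻¹ / nm x) * (9 * nm s⁻¹ * nm u⁻¹) =
        (81 * nm s * nm u * (nm s⁻¹ * nm u⁻¹) * nm x⁻¹) / nm x by ring, div_le_iff₀ px]
      calc _ ≤ nm x ^ 2 * δ' := hx
        _ = _ := by ring
    have h6 : 9 * nm s * nm u * (nm x⁻¹ / nm x) * (9 * nm s⁻¹ * nm u⁻¹) ≤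
        δ' * nm y * (9 * nm s⁻¹ * nm u⁻¹) := by
      calc _ ≤ δ' * nm x := h5
        _ ≤ δ' * (9 * nm s⁻¹ * nm u⁻¹ * nm y) := by gcongr
        _ = _ := by ring
    exact le_of_mul_le_mul_right h6 (by positivity)
  have e5 : ‖col y - c • (s.1 *ᵥ col x)‖ ≤ δ' * ‖col y‖ := by
    rw [norm_col]; exact e2.trans e4
  have hne : c • (s.1 *ᵥ col x) ≠ 0 := by
    intro h0
    rw [h0, sub_zero] at e5
    rw [norm_col] at e5
    nlinarith
  have h7 := h (col y) (c • (s.1 *ᵥ col x)) (col_ne y) hne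
    (e5.trans (mul_le_mul_of_nonneg_right hd1 (norm_nonneg _)))
  rw [pt_smul _ (mulVec_ne s (col_ne x)) c hne] at h7
  rw [← hy]
  exact h7

/-- The inverse expands away from the attracting point. -/
theorem inv_low {δ : ℝ} {x : G3 k} {w : Fin 3 → k}
    (hs : ∀ a b : k, δ * ‖b • w‖ ≤ ‖a • col x - b • w‖) :
    δ / 3 * (nm x / nm x⁻¹) * ‖w‖ ≤ ‖(x⁻¹).1 *ᵥ w‖ := by
  have px := nm_pos x
  have px' := nm_pos x⁻¹
  have h1 := rk_mulVec x ((x⁻¹).1 *ᵥ w)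
  rw [mulVec_inv] at h1
  have h2 := hs (row x ⬝ᵥ ((x⁻¹).1 *ᵥ w)) 1
  rw [one_smul, norm_sub_rev] at h2
  have h3 := h2.trans h1
  rw [show δ / 3 * (nm x / nm x⁻¹) * ‖w‖ = (δ * ‖w‖) / (3 * (nm x⁻¹ / nm x)) by
    field_simp, div_le_iff₀ (by positivity)]
  linarith

theorem prod_low {δ : ℝ} {x y : G3 k}
    (hs : ∀ a b : k, δ * ‖b • col y‖ ≤ ‖a • col x - b • col y‖) :
    δ / 3 * (nm x / nm x⁻¹) * nm y ≤ nm (x⁻¹ * y) := by
  have h1 := inv_low hs
  rw [norm_col] at h1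
  refine h1.trans ?_
  rw [col_eq y, ← mul_mulVec]
  exact norm_mulVec_single _ _

theorem log_prod_low {δ : ℝ} (hδ : 0 < δ) {x y : G3 k}
    (hs : ∀ a b : k, δ * ‖b • col y‖ ≤ ‖a • col x - b • col y‖) :
    Real.log (δ / 3) + Real.log (nm x) - Real.log (nm x⁻¹) + Real.log (nm y) ≤
      Real.log (nm (x⁻¹ * y)) := by
  have px := nm_pos x
  have px' := nm_pos x⁻¹
  have py := nm_pos y
  have h1 := Real.log_le_log (by positivity) (prod_low hs)
  rw [Real.log_mul (by positivity) py.ne', Real.log_mul (by positivity) (by positivity),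
    Real.log_div px.ne' px'.ne'] at h1
  linarith

theorem log_prod_up (x y : G3 k) :
    Real.log (nm (x⁻¹ * y)) ≤ Real.log 3 + Real.log (nm x⁻¹) + Real.log (nm y) := by
  have px' := nm_pos x⁻¹
  have py := nm_pos y
  have h1 := Real.log_le_log (nm_pos _) (nm_mul x⁻¹ y)
  rw [Real.log_mul (by positivity) py.ne', Real.log_mul (by positivity) px'.ne'] at h1
  exact h1

/-- The quotient determines the two elements up to bounded elements. -/
theorem quot_bd {δ R : ℝ} (hδ : 0 < δ) : ∃ M : ℝ, ∀ x₁ y₁ x₂ y₂ : G3 k,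
    (∀ a b : k, δ * ‖a • col x₁‖ ≤ ‖a • col x₁ - b • col y₁‖ ∧
      δ * ‖b • col y₁‖ ≤ ‖a • col x₁ - b • col y₁‖) →
    (∀ a b : k, δ * ‖a • col x₂‖ ≤ ‖a • col x₂ - b • col y₂‖ ∧
      δ * ‖b • col y₂‖ ≤ ‖a • col x₂ - b • col y₂‖) →
    gb x₁ ≤ R → gb y₁ ≤ R → gb x₂ ≤ R → gb y₂ ≤ R → x₁⁻¹ * y₁ = x₂⁻¹ * y₂ →
    nm (x₂ * x₁⁻¹) ≤ M := by
  obtain ⟨D, hD⟩ : ∃ D, D = Real.log 3 + R - Real.log (δ / 3) := ⟨_, rfl⟩
  obtain ⟨B, hB⟩ : ∃ B, B = 3 * Real.exp (R + D) := ⟨_, rfl⟩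
  have hB0 : 0 < B := by rw [hB]; positivity
  refine ⟨2 * B / δ + B, fun x₁ y₁ x₂ y₂ hs₁ hs₂ g1 g2 g3 g4 he => ?_⟩
  have he' : y₁⁻¹ * x₁ = y₂⁻¹ * x₂ := by
    have := congrArg (fun g => g⁻¹) he
    simpa using this
  -- sizes
  have sw : ∀ x y : G3 k, (∀ a b : k, δ * ‖a • col x‖ ≤ ‖a • col x - b • col y‖ ∧
      δ * ‖b • col y‖ ≤ ‖a • col x - b • col y‖) →
      ∀ a b : k, δ * ‖b • col x‖ ≤ ‖a • col y - b • col x‖ := fun x y hs a b => by
    rw [norm_sub_rev]; exact (hs b a).1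
  have l1 := log_prod_low hδ (fun a b => (hs₁ a b).2)
  have l2 := log_prod_low hδ (fun a b => (hs₂ a b).2)
  have l3 := log_prod_low hδ (sw x₁ y₁ hs₁)
  have l4 := log_prod_low hδ (sw x₂ y₂ hs₂)
  have u1 := log_prod_up x₁ y₁
  have u2 := log_prod_up x₂ y₂
  have u3 := log_prod_up y₁ x₁
  have u4 := log_prod_up y₂ x₂
  rw [← he] at l2 u2
  rw [← he'] at l4 u4
  unfold gb at g1 g2 g3 g4
  obtain ⟨a, ha⟩ : ∃ a, a = Real.log (nm x₁) - Real.log (nm x₂) := ⟨_, rfl⟩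
  obtain ⟨b, hb⟩ : ∃ b, b = Real.log (nm y₁) - Real.log (nm y₂) := ⟨_, rfl⟩
  have c1 : a / 2 + b ≤ D := by linarith
  have c2 : -D ≤ a / 2 + b := by linarith
  have c3 : b / 2 + a ≤ D := by linarith
  have c4 : -D ≤ b / 2 + a := by linarith
  have c5 : a ≤ 2 * D := by linarith
  have c6 : b ≤ 2 * D := by linarith
  -- the two rank one approximations
  have app : ∀ p q : G3 k, 2 * Real.log (nm p⁻¹) - Real.log (nm p) ≤ R →
      2 * Real.log (nm q⁻¹) - Real.log (nm q) ≤ R →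
      Real.log (nm p) - Real.log (nm q) ≤ 2 * D → ∀ e : Fin 3,
      ‖(q * p⁻¹).1 *ᵥ Pi.single e 1 - (row q ⬝ᵥ ((p⁻¹).1 *ᵥ Pi.single e 1)) • col q‖ ≤ B := by
    intro p q hp hq hpq e
    rw [mul_mulVec]
    refine (rk_mulVec q _).trans ?_
    have pp := nm_pos p
    have pp' := nm_pos p⁻¹
    have pq := nm_pos q
    have pq' := nm_pos q⁻¹
    have h1 : nm q⁻¹ / nm q * nm p⁻¹ ≤ Real.exp (R + D) := by
      rw [← Real.log_le_iff_le_exp (by positivity), Real.log_mul (by positivity) pp'.ne',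
        Real.log_div pq'.ne' pq.ne']
      linarith
    calc 3 * (nm q⁻¹ / nm q) * ‖(p⁻¹).1 *ᵥ Pi.single e 1‖ ≤ 3 * (nm q⁻¹ / nm q) * nm p⁻¹ := by
          gcongr
          exact norm_mulVec_single _ _
      _ = 3 * (nm q⁻¹ / nm q * nm p⁻¹) := by ring
      _ ≤ 3 * Real.exp (R + D) := by gcongr
      _ = B := hB.symm
  have hh : y₂ * y₁⁻¹ = x₂ * x₁⁻¹ := by
    have h1 : y₁ = x₁ * (x₂⁻¹ * y₂) := by rw [← he]; group
    rw [h1]; group
  refine nm_le_of_cols (by positivity) fun e => ?_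
  have a1 := app x₁ x₂ g1 g3 (by linarith) e
  have a2 := app y₁ y₂ g2 g4 (by linarith) e
  rw [hh] at a2
  obtain ⟨v, hv⟩ : ∃ v, v = (x₂ * x₁⁻¹).1 *ᵥ Pi.single e 1 := ⟨_, rfl⟩
  obtain ⟨c, hc⟩ : ∃ c, c = row x₂ ⬝ᵥ ((x₁⁻¹).1 *ᵥ Pi.single e 1) := ⟨_, rfl⟩
  obtain ⟨d, hd⟩ : ∃ d, d = row y₂ ⬝ᵥ ((y₁⁻¹).1 *ᵥ Pi.single e 1) := ⟨_, rfl⟩
  rw [← hv, ← hc] at a1
  rw [← hv, ← hd] at a2
  rw [← hv]
  have a3 : ‖c • col x₂ - d • col y₂‖ ≤ 2 * B := by
    calc ‖c • col x₂ - d • col y₂‖ = ‖(v - d • col y₂) - (v - c • col x₂)‖ := by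
          congr 1; abel
      _ ≤ ‖v - d • col y₂‖ + ‖v - c • col x₂‖ := norm_sub_le _ _
      _ ≤ 2 * B := by linarith
  have a4 := (hs₂ c d).1.trans a3
  have a5 : ‖c • col x₂‖ ≤ 2 * B / δ := by
    rw [le_div_iff₀ hδ]; linarith
  calc ‖v‖ = ‖c • col x₂ + (v - c • col x₂)‖ := by congr 1; abel
    _ ≤ ‖c • col x₂‖ + ‖v - c • col x₂‖ := norm_add_le _ _
    _ ≤ 2 * B / δ + B := add_le_add a5 a1

end geom

section group

variable {k : Type} [NontriviallyNormedField k] [ProperSpace k] {Γ : Type} [Group Γ]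
  (q : Γ →* G3 k)

/-- **Separation** of disjoint closed sets. -/
theorem sepP (disc : ∀ C : ℝ, {γ : Γ | nm (q γ) ≤ C}.Finite) {A A' : Set (PP k)}
    (hA : IsClosed A) (hA' : IsClosed A') (hd : Disjoint A A') :
    SepP (fun γ => ga (q γ)) (fun γ => gb (q γ)) (fun γ => bpk (q γ)) A A' := by
  obtain ⟨δ, hδ, hs⟩ := exists_sep hA hA' hd
  intro R
  obtain ⟨M, hM⟩ := quot_bd (k := k) (R := R) hδ
  refine ⟨(disc M).toFinset, fun r => ⟨r + R + |3 * Real.log (δ / 3)| + 2 * Real.log 3 + 1,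
    ⟨fun x y hx hy tx ty rx ry => ?_, ?_⟩⟩⟩
  · have h1 := hs (col (q x)) (col (q y)) (col_ne _) (col_ne _) hx hy
    have sw : ∀ a b : k, δ * ‖b • col (q x)‖ ≤ ‖a • col (q y) - b • col (q x)‖ := fun a b => by
      rw [norm_sub_rev]; exact (h1 b a).1
    have l1 := log_prod_low hδ (fun a b => (h1 a b).2)
    have l2 := log_prod_low hδ sw
    have u1 := log_prod_up (q x) (q y)
    have u2 := log_prod_up (q y) (q x)
    have e : (q (x⁻¹ * y))⁻¹ = (q y)⁻¹ * q x := by rw [← map_inv, ← map_inv, ← map_mul]; group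
    have e' : q (x⁻¹ * y) = (q x)⁻¹ * q y := by rw [map_mul, map_inv]
    have hl3 : 0 < Real.log 3 := Real.log_pos (by norm_num)
    have ab := neg_abs_le (3 * Real.log (δ / 3))
    have ab2 := abs_nonneg (3 * Real.log (δ / 3))
    have ab3 : -(|3 * Real.log (δ / 3)|) ≤ 2 * Real.log (δ / 3) := by
      rcases le_total 0 (Real.log (δ / 3)) with hh | hh
      · linarith
      · rw [abs_of_nonpos (by linarith)]; linarith
    simp only [ga, gb] at tx ty rx ry ⊢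
    rw [e, e']
    constructor
    · linarith
    · linarith
  · intro x₁ y₁ x₂ y₂ hx₁ hy₁ hx₂ hy₂ _ _ _ _ r1 r2 r3 r4 he
    rw [Set.Finite.mem_toFinset, Set.mem_setOf_eq, map_mul, map_inv]
    refine hM (q x₁) (q y₁) (q x₂) (q y₂) (fun a b => hs _ _ (col_ne _) (col_ne _) hx₁ hy₁ a b)
      (fun a b => hs _ _ (col_ne _) (col_ne _) hx₂ hy₂ a b) r1 r2 r3 r4 ?_
    rw [← map_inv, ← map_inv, ← map_mul, ← map_mul, he]

/-- **[GeoF]** The geometry of the wall limits, over every local field. -/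
theorem geoF (disc : ∀ C : ℝ, {γ : Γ | nm (q γ) ≤ C}.Finite) :
    @GeoF Γ (PP k) _ _ (MulAction.compHom (PP k) q) (fun γ => ga (q γ)) (fun γ => gb (q γ))
      (fun γ => bpk (q γ)) := by
  let _ : MulAction Γ (PP k) := MulAction.compHom (PP k) q
  refine ⟨fun s => ?_, fun r => ?_, fun s u => ?_, fun s u f ε hε r => ?_,
    fun A A' hA hA' hd => sepP q disc hA hA' hd⟩
  · exact continuous_const_smul (q s)
  · exact (disc (2 * Real.exp (2 * r))).subset fun γ hγ => nm_le_of_gap hγ.1 hγ.2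
  · obtain ⟨C, hC⟩ := gap_qi (q s) (q u)
    refine ⟨C, fun x => ?_⟩
    have := hC (q x)
    rw [← map_mul, ← map_mul] at this
    exact this
  · obtain ⟨T, hT⟩ := stab (q s) (q u) f.continuous hε
    refine ⟨T, fun x hx _ => ?_⟩
    have h1 := hT (q x) hx
    rw [Real.dist_eq, ← map_mul, ← map_mul] at h1
    exact h1.le

/-- **[DOMG]** The cone over `A` consists of near-wall elements with attracting point in `A`, up to
a finite and a regular part. -/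
theorem cone_sub (r : ℝ) : ∀ T > 0, ∃ T' : ℝ, ∀ A : Set (PP k),
    cn (fun γ => ga (q γ)) (fun γ => gb (q γ)) (fun γ => bpk (q γ)) A ⊆
      {γ | NW (Real.exp r) (q γ) ∧ SD.Att T A (q γ)} ∪
        (FF (fun γ => ga (q γ)) (fun γ => gb (q γ)) T' ∪
          BB (fun γ => ga (q γ)) (fun γ => gb (q γ)) r) := by
  intro T hT
  refine ⟨max (Real.log T) r, fun A γ hγ => ?_⟩
  obtain ⟨h1, h2⟩ := hγ
  by_cases h3 : gb (q γ) ≤ r
  · by_cases h4 : Real.log T ≤ ga (q γ)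
    · left
      exact ⟨nw_of_gb h3, att_of_ga hT h2 h4⟩
    · right; left
      push Not at h4
      exact ⟨h4.le.trans (le_max_left _ _), h3.trans (le_max_right _ _)⟩
  · right; right
    push Not at h3
    exact ⟨lt_of_lt_of_le h3 h1, h3⟩

/-- Outside the near-wall elements: off the cone or regular. -/
theorem not_nw_sub (r : ℝ) : {γ | ¬ NW (Real.exp r) (q γ)} ⊆
    {γ | ga (q γ) < gb (q γ)} ∪ BB (fun γ => ga (q γ)) (fun γ => gb (q γ)) r := by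
  intro γ hγ
  have h3 : ¬ gb (q γ) ≤ r := fun h => hγ (nw_of_gb h)
  push Not at h3
  by_cases h4 : ga (q γ) < gb (q γ)
  · left; exact h4
  · right
    push Not at h4
    exact ⟨lt_of_lt_of_le h3 h4, h3⟩

theorem disc_tau (disc : ∀ C : ℝ, {γ : Γ | nm (q γ) ≤ C}.Finite) (C : ℝ) :
    {γ : Γ | nm (((tau k).comp q) γ) ≤ C}.Finite := by
  refine (disc (2 * |C| ^ 2)).subset fun γ hγ => ?_
  have h1 : nm (q γ)⁻¹ ≤ C := by
    have h2 : nm (((tau k).comp q) γ) ≤ C := hγ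
    rwa [MonoidHom.comp_apply, nm_tau] at h2
  have h3 := nm_le_inv (q γ)
  have h4 := nm_pos (q γ)⁻¹
  have h5 : nm (q γ)⁻¹ ≤ |C| := h1.trans (le_abs_self C)
  have h6 : nm (q γ)⁻¹ ^ 2 ≤ |C| ^ 2 := pow_le_pow_left₀ h4.le h5 2
  change nm (q γ) ≤ 2 * |C| ^ 2
  linarith

/-- The geometry for the lines. -/
theorem geoF_tau (disc : ∀ C : ℝ, {γ : Γ | nm (q γ) ≤ C}.Finite) :
    @GeoF Γ (PP k) _ _ (MulAction.compHom (PP k) ((tau k).comp q))
      (fun γ => gb (q γ)) (fun γ => ga (q γ)) (fun γ => bpk (tau k (q γ))) := by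
  have h := geoF ((tau k).comp q) (disc_tau q disc)
  have e1 : (fun γ => ga (((tau k).comp q) γ)) = fun γ => gb (q γ) := by
    funext γ; exact ga_tau _
  have e2 : (fun γ => gb (((tau k).comp q) γ)) = fun γ => ga (q γ) := by
    funext γ; exact gb_tau _
  rw [e1, e2] at h
  exact h

end group

end Vale.Agent.P092.H534.GK
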