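import Vale.Agent.P092.H725.SN.Size
import Vale.Agent.P092.H103.PicI
import Vale.Agent.P092.SD.Blocks

/-!
P092 (helper534), [U4]: the field `size` of `SD.LegS` over any local field.
-/

set_option linter.all false

open scoped InnerProductSpace ENNReal LinearAlgebra.Projectivization
open Filter Topology ContinuousLinearMap MeasureTheory TopologicalSpace

namespace Vale.Agent.P092.H534.GK

open Vale.Agent.P092.SD Vale.Agent.P092.SR Vale.Agent.P092.H160
open Vale.Agent.P092.RC (KK pic lam₁ lam₂ XX Om)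
open Vale.Agent.P092.H933 (LocK)

theorem wJ_bw {k : Type} [NontriviallyNormedField k] (w : kˣ) :
    (H725.SN.wJ w {0} : Matrix.SpecialLinearGroup (Fin 3) k) = bw w := by
  apply Subtype.ext
  rw [H725.SN.wJ_coe]
  change Matrix.diagonal _ = Matrix.diagonal _
  refine congrArg Matrix.diagonal (funext fun i => ?_)
  fin_cases i <;> simp [H725.SN.wd]

section loc

variable {k : Type} [NontriviallyNormedField k] [ProperSpace k] [LocallyCompactSpace (G3 k)]
  [SecondCountableTopology (G3 k)] [MeasurableSpace (G3 k)] [BorelSpace (G3 k)]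
  {Γ : Subgroup (G3 k)} [DiscreteTopology Γ] [Countable Γ] [MeasurableSpace (G3 k ⧸ Γ)]
  [BorelSpace (G3 k ⧸ Γ)] {ν : Measure (G3 k ⧸ Γ)} [IsProbabilityMeasure ν]
  (hν : ∀ g : G3 k, ν.map (fun x => g • x) = ν)
  {Λ : Type} [Group Λ] {α : Γ →* (Ell2 Λ →L[ℂ] Ell2 Λ)} (hα : Frame α)

/-- (SIZE) over any local field, first leg, any wall element, any homomorphism `q`. -/
theorem size_loc (hk : LocK k)
    (hΛ : ∀ g : Λ, g ≠ 1 → Set.Infinite {y : Λ | ∃ h, y = h * g * h⁻¹}) (w : kˣ)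
    (q : Γ →* G3 k) : SIZE w (pic hν hα) (Om ν Λ) (H103.mS₁ ν hα) q := by
  have h := H725.SN.sz3_wall₁ hν hα hΛ (H103.bF₁ hα) hk le_rfl (H103.bF₁_ap hα) (H103.ms₁ hα)
    w {0} q
  rw [wJ_bw] at h
  exact (h.nmm (H103.ms₁ hα)).exp_exp (H103.ms₁ hα)

end loc

end Vale.Agent.P092.H534.GK
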