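import Vale.Agent.P092.H805.HalfK
import Vale.Agent.P092.H534.NWK
import Vale.Agent.P092.H534.SizeLoc
import Vale.Agent.P092.H368.SN.OrbP
import Vale.Agent.P092.SD.Flip

/-!
P092 (helper534), [U7]: both legs `SD.LegS` of the concrete picture, for a lattice of `SL_3(k)`,
`k` any local field (`ℝ`, `ℂ`, nonarchimedean of any characteristic).
-/

set_option linter.all false

open scoped InnerProductSpace ENNReal LinearAlgebra.Projectivization
open Filter Topology ContinuousLinearMap MeasureTheory TopologicalSpace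

namespace Vale.Agent.P092.H534.GK

open Vale.Agent.P092.SD Vale.Agent.P092.SR Vale.Agent.P092.H160
open Vale.Agent.P092.RC (VR arep_VR VR_one KK pic lam₁ lam₂ XX Om)
open Vale.Agent.P092.H859.CL (BB)
open Vale.Agent.P092.H933 (LocK)
open Vale.Agent.P092.H368.SN (md md_pos)
open Vale.Agent.P092.H805.HalfK (half_GK msK cov_VR cov_lx)

section walls

variable {k : Type} [NontriviallyNormedField k]

theorem wl_bw (w : kˣ) : (H368.SN.wl 0 w : G3 k) = bw w := by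
  apply Subtype.ext
  rw [H368.SN.wl_coe]
  change Matrix.diagonal _ = Matrix.diagonal _
  refine congrArg Matrix.diagonal (funext fun i => ?_)
  fin_cases i <;> simp [H368.SN.wdg]

end walls

section loc

variable {k : Type} [NontriviallyNormedField k] [ProperSpace k] [LocallyCompactSpace (G3 k)]
  [SecondCountableTopology (G3 k)] [MeasurableSpace (G3 k)] [BorelSpace (G3 k)]
  {Γ : Subgroup (G3 k)} [DiscreteTopology Γ] [Countable Γ] [MeasurableSpace (G3 k ⧸ Γ)]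
  [BorelSpace (G3 k ⧸ Γ)] {ν : Measure (G3 k ⧸ Γ)} [IsProbabilityMeasure ν]
  (hν : ∀ g : G3 k, ν.map (fun x => g • x) = ν)
  {Λ : Type} [Group Λ] [Countable Λ] {α : Γ →* (Ell2 Λ →L[ℂ] Ell2 Λ)} (hα : Frame α)

/-- (ORB) over any local field, if `mod w ≤ ‖w‖`. -/
theorem orb_loc [MeasurableSpace k] [BorelSpace k] {μ : Measure k} [μ.IsAddHaarMeasure] {w : kˣ}
    (hmd : md w ≤ ‖(w : k)‖) :
    ORB μ w (pic hν hα) (lam₁ ν α) (XX ν Λ ∪ Set.range (lam₂ ν α)) (Om ν Λ) := by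
  have h0 : (0 : Fin 3) ≠ 1 := by decide
  have h1 := H368.SN.orbE₁ hν hα (μ := μ) (H368.SN.continuous_tv h0)
    (H368.SN.spr_wl (μ := μ) h0 w)
  intro g δ hδ
  obtain ⟨C, hC⟩ := h1 g δ hδ
  refine ⟨max C 0, fun N T hT hT1 => ?_⟩
  have h2 := hC N T hT hT1
  rw [wl_bw] at h2
  refine h2.trans (add_le_add_left (mul_le_mul_left (ENNReal.ofReal_le_ofReal ?_) _) _)
  have h3 : (md w ^ Fintype.card (Fin 3)) ^ N ≤ ‖(w : k)‖ ^ (3 * N) := by
    rw [Fintype.card_fin, ← pow_mul]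
    exact pow_le_pow_left₀ (md_pos w).le hmd _
  have h4 : 0 ≤ (md w ^ Fintype.card (Fin 3)) ^ N := by
    have := (md_pos w).le
    positivity
  calc C * (md w ^ Fintype.card (Fin 3)) ^ N ≤ max C 0 * (md w ^ Fintype.card (Fin 3)) ^ N :=
        mul_le_mul_of_nonneg_right (le_max_left _ _) h4
    _ ≤ _ := mul_le_mul_of_nonneg_left h3 (le_max_right _ _)

/-- **Leg 1 over any local field.** -/
theorem leg₁_loc (hk : LocK k) [MeasurableSpace k] [BorelSpace k] {μ : Measure k}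
    [μ.IsAddHaarMeasure] {w : kˣ} (hw : ‖(w : k)‖ < 1) (hmd : md w ≤ ‖(w : k)‖)
    (hΛ : ∀ g : Λ, g ≠ 1 → Set.Infinite {y : Λ | ∃ h, y = h * g * h⁻¹}) :
    ∃ (q : Γ →* G3 k) (E F : PP k → (CP k →⋆ₐ[ℂ] (KK ν Λ →L[ℂ] KK ν Λ))),
      (q = Γ.subtype ∨ q = (tau k).comp Γ.subtype) ∧
      LegS μ w (pic hν hα) (lam₁ ν α) (XX ν Λ ∪ Set.range (lam₂ ν α)) (Om ν Λ)
        (H103.mS₁ ν hα) q E F :=
  half_GK hν hα hw hΛ
    (fun ε hε => nrm_bwK Γ ν hν hk (arep_VR hα) (cov_VR hα) (fun A q => cov_lx hα A q) hw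
      Γ.subtype (H805.HalfK.disc_sub Γ) hε)
    (fun q _ => size_loc hν hα hk hΛ w q) (orb_loc hν hα hmd)

/-- **Both legs over any local field**: helper252's `ExStmtU` / `SD.ExStmt`. -/
theorem ex_loc (hk : LocK k) [MeasurableSpace k] [BorelSpace k] {μ : Measure k}
    [μ.IsAddHaarMeasure] {w : kˣ} (hw : ‖(w : k)‖ < 1) (hmd : md w ≤ ‖(w : k)‖)
    (hΛ : ∀ g : Λ, g ≠ 1 → Set.Infinite {y : Λ | ∃ h, y = h * g * h⁻¹}) :
    ∃ (m₁ m₂ : Set Γ → (KK ν Λ →L[ℂ] KK ν Λ)) (q₁ q₂ : Γ →* G3 k)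
      (E₁ F₁ E₂ F₂ : PP k → (CP k →⋆ₐ[ℂ] (KK ν Λ →L[ℂ] KK ν Λ))),
      LegS μ w (pic hν hα) (lam₁ ν α) (XX ν Λ ∪ Set.range (lam₂ ν α)) (Om ν Λ) m₁ q₁ E₁ F₁ ∧
      LegS μ w (pic hν hα) (lam₂ ν α) (XX ν Λ ∪ Set.range (lam₁ ν α)) (Om ν Λ) m₂ q₂ E₂ F₂ := by
  obtain ⟨q, E, F, -, h⟩ := leg₁_loc hν hα hk (μ := μ) hw hmd hΛ
  exact ⟨_, _, q, q, E, F, _, _, h, tw_legS (tw_flK hν hα) h⟩

end loc

end Vale.Agent.P092.H534.GK
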