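import Vale.Agent.P092.H252.DU.Blocks
import Vale.Agent.P092.H534.HalfLoc

/-!
P092 (helper534), D-ULTRA [U4]-[U7]: `H252.DU.ExStmt` (both legs) over every local field whose
norm satisfies `md w ≤ ‖w‖` for some `‖w‖ < 1` (`ℝ`, `ℂ`, and the output of [U3]).
-/

set_option linter.all false

open scoped InnerProductSpace ENNReal LinearAlgebra.Projectivization
open Filter Topology ContinuousLinearMap MeasureTheory TopologicalSpace

namespace Vale.Agent.P092.H534.GK

open Vale.Agent.P092.SD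
open Vale.Agent.P092.H933 (LocK)
open Vale.Agent.P092.H368.SN (md md_pos)

/-- **Both legs, in the literals of `H252/DU/Blocks`, every local field.** -/
theorem exStmt {k : Type} [NontriviallyNormedField k] [ProperSpace k] [MeasurableSpace k]
    [BorelSpace k] (hk : LocK k) (μ : Measure k) [μ.IsAddHaarMeasure] {w : kˣ}
    (hw : ‖(w : k)‖ < 1) (hmd : md w ≤ ‖(w : k)‖) : H252.DU.ExStmt k μ := by
  intro _ _ _ _ Γ _ _ _ _ ν _ hν hl hΓ Λ _ _ hΛ α hα
  obtain ⟨m₁, m₂, q₁, q₂, E₁, F₁, E₂, F₂, h₁, h₂⟩ := ex_loc hν hα hk (μ := μ) hw hmd hΛ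
  exact ⟨w, m₁, m₂, q₁, q₂, E₁, F₁, E₂, F₂, h₁, h₂⟩

end Vale.Agent.P092.H534.GK
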