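import Vale.Agent.P092.H933.CSvd
import Vale.Agent.P092.H933.LocF

/-!
P092 (helper534), `SL_n(k)`, `k` any local field, every `n`: the gaps of the system of gauges of
helper515 / helper933 and the Cartan decompositions with bounded factors.
-/

set_option linter.all false

open Matrix
open scoped ComplexOrder

namespace Vale.Agent.P092.H534.GK

open Vale.Agent.P092.H515 (GSys EmbW place_gsys gsys_all)
open Vale.Agent.P092.H933 (LocK rea IsSVDC exists_svdC svd_rea svd_cmp_log)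

section crt

variable {k l : Type} [NontriviallyNormedField k] [NontriviallyNormedField l] {n : ℕ}

/-- A Cartan decomposition with bounded factors. -/
structure Crt (h : Matrix (Fin n) (Fin n) k) (a : Fin n → k)
    (U U' V V' : Matrix (Fin n) (Fin n) k) : Prop where
  hU : ∀ i j, ‖U i j‖ ≤ 1
  hU' : ∀ i j, ‖U' i j‖ ≤ 1
  hV : ∀ i j, ‖V i j‖ ≤ 1
  hV' : ∀ i j, ‖V' i j‖ ≤ 1
  uu : U * U' = 1
  vv : V * V' = 1
  anti : Antitone fun i => ‖a i‖
  eq : h = U * diagonal a * V

theorem Crt.uu' {h : Matrix (Fin n) (Fin n) k} {a : Fin n → k}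
    {U U' V V' : Matrix (Fin n) (Fin n) k} (H : Crt h a U U' V V') : U' * U = 1 :=
  mul_eq_one_comm.mp H.uu

theorem Crt.vv' {h : Matrix (Fin n) (Fin n) k} {a : Fin n → k}
    {U U' V V' : Matrix (Fin n) (Fin n) k} (H : Crt h a U U' V V') : V' * V = 1 :=
  mul_eq_one_comm.mp H.vv

/-- The diagonal part. -/
theorem Crt.diag {h : Matrix (Fin n) (Fin n) k} {a : Fin n → k}
    {U U' V V' : Matrix (Fin n) (Fin n) k} (H : Crt h a U U' V V') :
    diagonal a = U' * h * V' := by
  rw [H.eq]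
  calc diagonal a = (U' * U) * diagonal a * (V * V') := by
        rw [H.uu', H.vv, Matrix.one_mul, Matrix.mul_one]
    _ = _ := by simp only [Matrix.mul_assoc]

theorem Crt.ne {h : Matrix (Fin n) (Fin n) k} {a : Fin n → k}
    {U U' V V' : Matrix (Fin n) (Fin n) k} (H : Crt h a U U' V V') (hd : h.det ≠ 0) (i : Fin n) :
    a i ≠ 0 := by
  intro h0
  rw [H.eq, det_mul, det_mul, det_diagonal, Finset.prod_eq_zero (Finset.mem_univ i) h0, mul_zero,
    zero_mul] at hd
  exact hd rfl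

theorem Crt.pos {h : Matrix (Fin n) (Fin n) k} {a : Fin n → k}
    {U U' V V' : Matrix (Fin n) (Fin n) k} (H : Crt h a U U' V V') (hd : h.det ≠ 0) (i : Fin n) :
    0 < ‖a i‖ := norm_pos_iff.mpr (H.ne hd i)

/-- The inverse. -/
theorem Crt.inv {h h' : Matrix (Fin n) (Fin n) k} {a : Fin n → k}
    {U U' V V' : Matrix (Fin n) (Fin n) k} (H : Crt h a U U' V V') (hd : h.det ≠ 0)
    (hh : h' * h = 1) : h' = V' * diagonal (fun i => (a i)⁻¹) * U' := by
  have hdi : diagonal a * diagonal (fun i => (a i)⁻¹) = (1 : Matrix (Fin n) (Fin n) k) := by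
    rw [diagonal_mul_diagonal, ← diagonal_one]
    refine congrArg diagonal (funext fun i => ?_)
    exact mul_inv_cancel₀ (H.ne hd i)
  have e1 : h * (V' * diagonal (fun i => (a i)⁻¹) * U') = 1 := by
    rw [H.eq]
    calc U * diagonal a * V * (V' * diagonal (fun i => (a i)⁻¹) * U')
        = U * (diagonal a * (V * V') * diagonal (fun i => (a i)⁻¹)) * U' := by
          simp only [Matrix.mul_assoc]
      _ = 1 := by rw [H.vv, Matrix.mul_one, hdi, Matrix.mul_one, H.uu]
  calc h' = h' * (h * (V' * diagonal (fun i => (a i)⁻¹) * U')) := by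
        rw [e1, Matrix.mul_one]
    _ = _ := by rw [← Matrix.mul_assoc, hh, Matrix.one_mul]

/-- Transport along an isometric isomorphism. -/
theorem Crt.of_map {φ : k ≃+* l} (hφ : ∀ x, ‖φ x‖ = ‖x‖) {h : Matrix (Fin n) (Fin n) k}
    {a : Fin n → l} {U U' V V' : Matrix (Fin n) (Fin n) l} (H : Crt (h.map φ) a U U' V V') :
    Crt h (fun i => φ.symm (a i)) (U.map φ.symm) (U'.map φ.symm) (V.map φ.symm)
      (V'.map φ.symm) := by
  have hs : ∀ x, ‖φ.symm x‖ = ‖x‖ := fun x => by rw [← hφ, φ.apply_symm_apply]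
  have hm : ∀ A B : Matrix (Fin n) (Fin n) l, (A * B).map φ.symm = A.map φ.symm * B.map φ.symm :=
    fun A B => Matrix.map_mul (f := (φ.symm : l →+* k))
  have h1 : (1 : Matrix (Fin n) (Fin n) l).map φ.symm = 1 :=
    Matrix.map_one _ (map_zero φ.symm) (map_one φ.symm)
  refine ⟨fun i j => ?_, fun i j => ?_, fun i j => ?_, fun i j => ?_, ?_, ?_, fun i j hij => ?_,
    ?_⟩
  · rw [Matrix.map_apply, hs]; exact H.hU i j
  · rw [Matrix.map_apply, hs]; exact H.hU' i j
  · rw [Matrix.map_apply, hs]; exact H.hV i j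
  · rw [Matrix.map_apply, hs]; exact H.hV' i j
  · rw [← hm, H.uu, h1]
  · rw [← hm, H.vv, h1]
  · change ‖φ.symm (a j)‖ ≤ ‖φ.symm (a i)‖
    rw [hs, hs]
    exact H.anti hij
  · have e : h = (h.map φ).map φ.symm := by
      ext i j
      rw [Matrix.map_apply, Matrix.map_apply, φ.symm_apply_apply]
    have e2 : (diagonal a).map φ.symm = diagonal (fun i => φ.symm (a i)) :=
      Matrix.diagonal_map (map_zero φ.symm)
    rw [e, H.eq, hm, hm, e2]

theorem sum_le_card {s : Fin n → ℝ} {c : ℝ} (h : ∀ i, s i ≤ c) : ∑ i, s i ≤ n * c := by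
  refine (Finset.sum_le_sum fun i _ => h i).trans ?_
  rw [Finset.sum_const, Finset.card_univ, Fintype.card_fin, nsmul_eq_mul]

/-- Entries of `U diag(a) V`. -/
theorem entry_le {U V : Matrix (Fin n) (Fin n) k} {a : Fin n → k} {c : ℝ}
    (hU : ∀ i j, ‖U i j‖ ≤ 1) (hV : ∀ i j, ‖V i j‖ ≤ 1) (ha : ∀ l, ‖a l‖ ≤ c) (i j : Fin n) :
    ‖(U * diagonal a * V) i j‖ ≤ n * c := by
  have hc : 0 ≤ c := (norm_nonneg _).trans (ha i)
  rw [Matrix.mul_apply]
  refine (norm_sum_le _ _).trans (sum_le_card fun l => ?_)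
  rw [Matrix.mul_diagonal, norm_mul, norm_mul]
  calc ‖U i l‖ * ‖a l‖ * ‖V l j‖ ≤ 1 * c * 1 := by
        refine mul_le_mul (mul_le_mul (hU _ _) (ha l) (norm_nonneg _) zero_le_one) (hV _ _)
          (norm_nonneg _) (by linarith)
    _ = c := by ring

/-- Entries of `U H V`. -/
theorem entry_le' {U V H : Matrix (Fin n) (Fin n) k} {c : ℝ}
    (hU : ∀ i j, ‖U i j‖ ≤ 1) (hV : ∀ i j, ‖V i j‖ ≤ 1) (ha : ∀ i j, ‖H i j‖ ≤ c)
    (i j : Fin n) : ‖(U * H * V) i j‖ ≤ n * (n * c) := by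
  have hc : 0 ≤ c := (norm_nonneg _).trans (ha i i)
  have g : ∀ l, ‖(U * H) i l‖ ≤ n * c := fun l => by
    rw [Matrix.mul_apply]
    refine (norm_sum_le _ _).trans (sum_le_card fun l' => ?_)
    rw [norm_mul]
    calc ‖U i l'‖ * ‖H l' l‖ ≤ 1 * c := mul_le_mul (hU _ _) (ha _ _) (norm_nonneg _) zero_le_one
      _ = c := one_mul _
  rw [Matrix.mul_apply]
  refine (norm_sum_le _ _).trans (sum_le_card fun l => ?_)
  rw [norm_mul]
  calc ‖(U * H) i l‖ * ‖V l j‖ ≤ n * c * 1 :=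
        mul_le_mul (g l) (hV _ _) (norm_nonneg _) (by positivity)
    _ = _ := mul_one _

end crt

/-! ### The three cases -/

section real

variable {n : ℕ}

theorem orth_entry {U : Matrix (Fin n) (Fin n) ℝ} (h : U * Uᵀ = 1) (i j : Fin n) :
    ‖U i j‖ ≤ 1 := by
  have h1 := congrFun (congrFun h i) i
  rw [Matrix.mul_apply, Matrix.one_apply_eq] at h1
  have h2 : U i j * U i j ≤ 1 := by
    rw [← h1]
    exact Finset.single_le_sum (f := fun j => U i j * Uᵀ j i)
      (fun j _ => by rw [transpose_apply]; exact mul_self_nonneg _) (Finset.mem_univ j)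
  rw [Real.norm_eq_abs]
  rw [← abs_mul_abs_self] at h2
  by_contra hc
  push Not at hc
  nlinarith [abs_nonneg (U i j)]

theorem crt_real {h : Matrix (Fin n) (Fin n) ℝ} (hd : h.det ≠ 0) :
    ∃ a U U' V V', Crt h a U U' V V' ∧ ∀ (i : ℕ) (hi : i + 1 < n),
      Real.log ‖a ⟨i, by omega⟩‖ - Real.log ‖a ⟨i + 1, hi⟩‖ ≤ H944.gap i h := by
  have S := H944.isSVD hd
  refine ⟨H944.sv h, H944.kA h, (H944.kA h)ᵀ, H944.kB h, (H944.kB h)ᵀ,
    ⟨orth_entry S.o1', orth_entry (by rw [transpose_transpose]; exact S.o1),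
      orth_entry S.o2', orth_entry (by rw [transpose_transpose]; exact S.o2), S.o1', S.o2',
      fun i j hij => ?_, S.eq⟩, fun i hi => ?_⟩
  · change ‖H944.sv h j‖ ≤ ‖H944.sv h i‖
    rw [Real.norm_of_nonneg (S.pos _).le, Real.norm_of_nonneg (S.pos _).le]
    exact S.anti hij
  · rw [Real.norm_of_nonneg (S.pos _).le, Real.norm_of_nonneg (S.pos _).le]
    have g0 := H944.gap_nonneg hd i
    have e0 : H944.gap i h = 2 * (Real.log (H944.sv h ⟨i, by omega⟩) -
        Real.log (H944.sv h ⟨i + 1, hi⟩)) := by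
      rw [H944.gap, if_pos hi, H944.la, dif_pos (by omega), H944.la, dif_pos hi]
    linarith

end real

section cplx

variable {n : ℕ}

theorem unit_entry {U : Matrix (Fin n) (Fin n) ℂ} (h : U * Uᴴ = 1) (i j : Fin n) :
    ‖U i j‖ ≤ 1 := by
  have h1 := congrArg Complex.re (congrFun (congrFun h i) i)
  rw [Matrix.mul_apply, Matrix.one_apply_eq, Complex.re_sum, Complex.one_re] at h1
  have e : ∀ j, (U i j * Uᴴ j i).re = ‖U i j‖ ^ 2 := fun j => by
    rw [conjTranspose_apply, ← Complex.normSq_eq_norm_sq]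
    simp [Complex.mul_re, Complex.normSq_apply]
  have h2 : ‖U i j‖ ^ 2 ≤ 1 := by
    rw [← h1, ← e j]
    exact Finset.single_le_sum (f := fun j => (U i j * Uᴴ j i).re)
      (fun j _ => by rw [e j]; positivity) (Finset.mem_univ j)
  by_contra hc
  push Not at hc
  nlinarith [norm_nonneg (U i j)]

theorem crt_cplx (n : ℕ) : ∃ C : ℝ, ∀ h : Matrix (Fin n) (Fin n) ℂ, h.det ≠ 0 →
    ∃ a U U' V V', Crt h a U U' V V' ∧ ∀ (i : ℕ) (hi : i + 1 < n),
      Real.log ‖a ⟨i, by omega⟩‖ - Real.log ‖a ⟨i + 1, hi⟩‖ ≤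
        H944.gap (2 * i + 1) (rea h) + C := by
  obtain ⟨C, hC0, hC⟩ := svd_cmp_log (N := n + n)
  refine ⟨4 * C, fun h hd => ?_⟩
  obtain ⟨U, a, V, S⟩ := exists_svdC h hd
  have na : ∀ i, ‖((a i : ℝ) : ℂ)‖ = a i := fun i => by
    rw [Complex.norm_real, Real.norm_of_nonneg (S.pos i).le]
  refine ⟨fun i => (a i : ℂ), U, Uᴴ, V, Vᴴ,
    ⟨unit_entry S.o1', unit_entry (by rw [conjTranspose_conjTranspose]; exact S.o1),
      unit_entry S.o2', unit_entry (by rw [conjTranspose_conjTranspose]; exact S.o2), S.o1',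
      S.o2', fun i j hij => ?_, S.eq⟩, fun i hi => ?_⟩
  · change ‖((a j : ℝ) : ℂ)‖ ≤ ‖((a i : ℝ) : ℂ)‖
    rw [na, na]; exact S.anti hij
  · have hdr : (rea h).det ≠ 0 := by
      intro h0
      have e := H933.det_rea h
      rw [h0] at e
      have e' : h.det * (starRingEnd ℂ) h.det = 0 := by rw [← e]; simp
      rcases mul_eq_zero.mp e' with h1 | h1
      · exact hd h1
      · exact hd ((map_eq_zero _).mp h1)
    have T := svd_rea S
    have R := H944.isSVD hdr
    have c1 := hC T R ⟨2 * i + 1, by omega⟩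
    have c2 := hC T R ⟨2 * i + 2, by omega⟩
    have t1 : (⟨(2 * i + 1) / 2, by omega⟩ : Fin n) = ⟨i, by omega⟩ :=
      Fin.ext (by change (2 * i + 1) / 2 = i; omega)
    have t2 : (⟨(2 * i + 2) / 2, by omega⟩ : Fin n) = ⟨i + 1, hi⟩ :=
      Fin.ext (by change (2 * i + 2) / 2 = i + 1; omega)
    simp only [t1, t2] at c1 c2
    have e0 : H944.gap (2 * i + 1) (rea h) =
        2 * (Real.log (H944.sv (rea h) ⟨2 * i + 1, by omega⟩) -
        Real.log (H944.sv (rea h) ⟨2 * i + 2, by omega⟩)) := by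
      rw [H944.gap, if_pos (by omega), H944.la, dif_pos (by omega), H944.la,
        dif_pos (by omega)]
    have m0 : Real.log (a ⟨i + 1, hi⟩) ≤ Real.log (a ⟨i, by omega⟩) :=
      Real.log_le_log (S.pos _) (S.anti (by simp))
    rw [na, na]
    rw [abs_le] at c1 c2
    rw [e0]
    linarith [c1.1, c1.2, c2.1, c2.2]

end cplx

section ultra

variable {k : Type} [NontriviallyNormedField k] [IsUltrametricDist k] {n : ℕ}

theorem crt_ultra (h : Matrix (Fin n) (Fin n) k) :
    ∃ a U U' V V', Crt h a U U' V V' ∧ ∀ (i : ℕ) (hi : i + 1 < n),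
      Real.log ‖a ⟨i, by omega⟩‖ - Real.log ‖a ⟨i + 1, hi⟩‖ ≤ H933.gap i h := by
  refine ⟨(H933.car h).a, (H933.car h).u, (H933.car h).ui, (H933.car h).v, (H933.car h).vi,
    ⟨(H933.car h).hu.le, (H933.car h).hu.lei, (H933.car h).hv.le, (H933.car h).hv.lei,
      (H933.car h).hu.mul, (H933.car h).hv.mul, (H933.car h).anti, (H933.car h).eq⟩,
    fun i hi => ?_⟩
  have e0 : H933.gap i h = Real.log (H933.sv h ⟨i, by omega⟩) -
      Real.log (H933.sv h ⟨i + 1, hi⟩) := by
    rw [H933.gap, if_pos hi, H933.la, dif_pos (by omega), H933.la, dif_pos hi]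
  exact le_of_eq e0.symm

end ultra

/-! ### All together -/

/-- **The system of gauges of a homomorphism to `SL_n` of a local field**, with the comparison of
its gaps with the Cartan decompositions. -/
theorem gsys_crt {k : Type} [NontriviallyNormedField k] [ProperSpace k] (hk : LocK k) {n : ℕ}
    (hn : 0 < n) {Γ : Type} [Group Γ] (q : Γ →* SpecialLinearGroup (Fin n) k) :
    ∃ (gap : Fin (n - 1) → Γ → ℝ) (w : Γ → ℝ), GSys gap w ∧
      (∀ R : ℝ, ∃ R' : ℝ, ∀ g, w g ≤ R → ∀ i j, ‖(q g).1 i j‖ ≤ R') ∧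
      ∃ C : ℝ, ∀ g, ∃ a U U' V V', Crt (q g).1 a U U' V V' ∧
        ∀ (i : ℕ) (hi : i + 1 < n), Real.log ‖a ⟨i, by omega⟩‖ - Real.log ‖a ⟨i + 1, hi⟩‖ ≤
          gap ⟨i, by omega⟩ g + C := by
  rcases hk with ⟨φ, h⟩ | ⟨φ, h⟩ | h
  · -- real
    have hE : EmbW fun g => ((q g).1 : Matrix (Fin n) (Fin n) k).map φ := by
      refine ⟨fun a b => Or.inl ?_, fun g => ?_⟩
      · rw [map_mul]
        exact (congrArg (fun M : Matrix (Fin n) (Fin n) k => M.map φ)
          (Matrix.SpecialLinearGroup.coe_mul (q a) (q b))).trans Matrix.map_mul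
      · have := RingHom.map_det (φ : k →+* ℝ) (q g).1
        rw [(q g).2, map_one] at this
        have e : (((q g).1 : Matrix (Fin n) (Fin n) k).map φ).det = 1 := this.symm
        rw [e, one_pow]
    refine ⟨_, _, gsys_all hn hE, fun R => ⟨|R| + 1, fun g hg i j => ?_⟩, 0, fun g => ?_⟩
    · rw [← h]
      exact H933.abs_entry_le hg i j
    · have hd : (((q g).1 : Matrix (Fin n) (Fin n) k).map φ).det ≠ 0 := by
        have := RingHom.map_det (φ : k →+* ℝ) (q g).1
        rw [(q g).2, map_one] at this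
        have e : (((q g).1 : Matrix (Fin n) (Fin n) k).map φ).det = 1 := this.symm
        rw [e]; exact one_ne_zero
      obtain ⟨a, U, U', V, V', H, hgap⟩ := crt_real hd
      have hs : ∀ x, ‖φ.symm x‖ = ‖x‖ := fun x => by rw [← h, φ.apply_symm_apply]
      refine ⟨_, _, _, _, _, H.of_map h, fun i hi => ?_⟩
      rw [hs, hs, add_zero]
      exact hgap i hi
  · -- complex
    obtain ⟨q', hq'⟩ : ∃ q' : Γ →* SpecialLinearGroup (Fin n) ℂ,
        q' = (SpecialLinearGroup.map (φ : k →+* ℂ)).comp q := ⟨_, rfl⟩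
    have e' : ∀ g, (q' g).1 = ((q g).1 : Matrix (Fin n) (Fin n) k).map φ := fun g => by
      rw [hq']; rfl
    obtain ⟨C, hC⟩ := crt_cplx n
    refine ⟨_, _, H933.gsys_cplx hn q',
      fun R => ⟨(|R| + 1) + (|R| + 1), fun g hg i j => ?_⟩, C, fun g => ?_⟩
    · have e : φ ((q g).1 i j) = (q' g).1 i j := by rw [e']; rfl
      rw [← h, e]
      have h1 := H933.abs_entry_le hg (finSumFinEquiv (Sum.inl i)) (finSumFinEquiv (Sum.inl j))
      have h2 := H933.abs_entry_le hg (finSumFinEquiv (Sum.inr i)) (finSumFinEquiv (Sum.inl j))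
      rw [(H933.re_im_rea _ i j).1] at h1
      rw [(H933.re_im_rea _ i j).2] at h2
      exact (Complex.norm_le_abs_re_add_abs_im _).trans (add_le_add h1 h2)
    · have hd : (q' g).1.det ≠ 0 := by rw [(q' g).2]; exact one_ne_zero
      obtain ⟨a, U, U', V, V', H, hgap⟩ := hC _ hd
      have hs : ∀ x, ‖φ.symm x‖ = ‖x‖ := fun x => by rw [← h, φ.apply_symm_apply]
      rw [e'] at H
      refine ⟨_, _, _, _, _, H.of_map h, fun i hi => ?_⟩
      rw [hs, hs]
      exact hgap i hi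
  · -- non-archimedean
    have hE : H933.PEmb fun g => ((q g).1 : Matrix (Fin n) (Fin n) k) := by
      refine ⟨fun a b => ⟨1, one_ne_zero, ?_⟩, fun g => ?_⟩
      · rw [map_mul, one_smul]
        exact Matrix.SpecialLinearGroup.coe_mul (q a) (q b)
      · rw [(q g).2]; exact one_ne_zero
    have hP := H933.place hn hE (H515.finEmb n) (R0 := 0) fun l hl hj =>
      absurd rfl (hj ⟨l, by omega⟩)
    refine ⟨_, _, place_gsys hP, fun R => ⟨R, fun g hg i j => ?_⟩, 0, fun g => ?_⟩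
    · refine (H933.entry_le_nr _ i j).trans ?_
      have e : H933.sz ((q g).1 : Matrix (Fin n) (Fin n) k) =
          H933.nr ((q g).1 : Matrix (Fin n) (Fin n) k) := by
        unfold H933.sz H933.nu
        rw [(q g).2, norm_one, Real.one_rpow, div_one]
      rw [← e]
      exact hg
    · obtain ⟨a, U, U', V, V', H, hgap⟩ := crt_ultra (q g).1
      refine ⟨a, U, U', V, V', H, fun i hi => ?_⟩
      rw [add_zero]
      exact hgap i hi

end Vale.Agent.P092.H534.GK
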