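import Vale.Agent.P092.H534.GK1
import Vale.Agent.P092.H534.CartN

/-!
P092 (helper534), one simple factor `SL_3(k)`, `k` any local field: the gaps `ga`, `gb` defined by
sizes against the gaps of the Cartan decompositions.
-/

set_option linter.all false

open Matrix

namespace Vale.Agent.P092.H534.GK

open Vale.Agent.P092.SD (G3 PP pt nm NW)
open Vale.Agent.P092.H515 (GSys)
open Vale.Agent.P092.H933 (LocK)

section crt

variable {k : Type} [NontriviallyNormedField k]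

/-- The constant. -/
noncomputable def cc : ℝ := 2 * Real.log 3 + Real.log 9 + Real.log 36

theorem norm_det_le {U : Matrix (Fin 3) (Fin 3) k} (hU : ∀ i j, ‖U i j‖ ≤ 1) : ‖U.det‖ ≤ 6 := by
  rw [Matrix.det_fin_three]
  have f : ∀ a b c d e g : Fin 3, ‖U a b * U c d * U e g‖ ≤ 1 := fun a b c d e g => by
    rw [norm_mul, norm_mul]
    exact mul_le_one₀ (mul_le_one₀ (hU _ _) (norm_nonneg _) (hU _ _)) (norm_nonneg _) (hU _ _)
  calc _ ≤ ‖U 0 0 * U 1 1 * U 2 2‖ + ‖U 0 0 * U 1 2 * U 2 1‖ + ‖U 0 1 * U 1 0 * U 2 2‖ +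
        ‖U 0 1 * U 1 2 * U 2 0‖ + ‖U 0 2 * U 1 0 * U 2 1‖ + ‖U 0 2 * U 1 1 * U 2 0‖ := by
        refine (norm_sub_le _ _).trans (add_le_add_left ?_ _)
        refine (norm_add_le _ _).trans (add_le_add_left ?_ _)
        refine (norm_add_le _ _).trans (add_le_add_left ?_ _)
        refine (norm_sub_le _ _).trans (add_le_add_left ?_ _)
        exact norm_sub_le _ _
    _ ≤ 1 + 1 + 1 + 1 + 1 + 1 := by
        have := f 0 0 1 1 2 2
        have := f 0 0 1 2 2 1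
        have := f 0 1 1 0 2 2
        have := f 0 1 1 2 2 0
        have := f 0 2 1 0 2 1
        have := f 0 2 1 1 2 0
        linarith
    _ = 6 := by norm_num

theorem entry_le3 {U V : Matrix (Fin 3) (Fin 3) k} {a : Fin 3 → k} {c : ℝ}
    (hU : ∀ i j, ‖U i j‖ ≤ 1) (hV : ∀ i j, ‖V i j‖ ≤ 1) (ha : ∀ l, ‖a l‖ ≤ c) (i j : Fin 3) :
    ‖(U * diagonal a * V) i j‖ ≤ 3 * c := by
  have h := entry_le hU hV ha i j
  rwa [show ((3 : ℕ) : ℝ) = 3 by norm_num] at h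

theorem entry_le3' {U V H : Matrix (Fin 3) (Fin 3) k} {c : ℝ}
    (hU : ∀ i j, ‖U i j‖ ≤ 1) (hV : ∀ i j, ‖V i j‖ ≤ 1) (ha : ∀ i j, ‖H i j‖ ≤ c)
    (i j : Fin 3) : ‖(U * H * V) i j‖ ≤ 9 * c := by
  have h := entry_le' hU hV ha i j
  rw [show ((3 : ℕ) : ℝ) = 3 by norm_num] at h
  linarith

theorem Crt.gaps3 {h : G3 k} {a : Fin 3 → k} {U U' V V' : Matrix (Fin 3) (Fin 3) k}
    (H : Crt h.1 a U U' V V') :
    ga h ≤ Real.log ‖a 0‖ - Real.log ‖a 1‖ + cc ∧ gb h ≤ Real.log ‖a 1‖ - Real.log ‖a 2‖ + cc := by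
  -- determinants
  have hd : U.det * (a 0 * a 1 * a 2) * V.det = 1 := by
    have := h.2
    rw [H.eq, det_mul, det_mul, det_diagonal, Fin.prod_univ_three] at this
    exact this
  have hdU : U.det * U'.det = 1 := by rw [← det_mul, H.uu, det_one]
  have hdV : V.det * V'.det = 1 := by rw [← det_mul, H.vv, det_one]
  have nd : ‖U.det‖ * ‖a 0 * a 1 * a 2‖ * ‖V.det‖ = 1 := by
    rw [← norm_mul, ← norm_mul, hd, norm_one]
  have ndU : ‖U.det‖ * ‖U'.det‖ = 1 := by rw [← norm_mul, hdU, norm_one]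
  have ndV : ‖V.det‖ * ‖V'.det‖ = 1 := by rw [← norm_mul, hdV, norm_one]
  have b1 := norm_det_le H.hU
  have b2 := norm_det_le H.hU'
  have b3 := norm_det_le H.hV
  have b4 := norm_det_le H.hV'
  obtain ⟨x, hx⟩ : ∃ x, x = ‖U.det‖ := ⟨_, rfl⟩
  obtain ⟨x', hx'⟩ : ∃ x', x' = ‖U'.det‖ := ⟨_, rfl⟩
  obtain ⟨y, hy⟩ : ∃ y, y = ‖V.det‖ := ⟨_, rfl⟩
  obtain ⟨y', hy'⟩ : ∃ y', y' = ‖V'.det‖ := ⟨_, rfl⟩
  obtain ⟨p, hp⟩ : ∃ p, p = ‖a 0 * a 1 * a 2‖ := ⟨_, rfl⟩
  have x0 : 0 ≤ x := by rw [hx]; exact norm_nonneg _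
  have x0' : 0 ≤ x' := by rw [hx']; exact norm_nonneg _
  have y0 : 0 ≤ y := by rw [hy]; exact norm_nonneg _
  have y0' : 0 ≤ y' := by rw [hy']; exact norm_nonneg _
  have p0 : 0 ≤ p := by rw [hp]; exact norm_nonneg _
  rw [← hx, ← hy, ← hp] at nd
  rw [← hx, ← hx'] at ndU
  rw [← hy, ← hy'] at ndV
  rw [← hx] at b1
  rw [← hx'] at b2
  rw [← hy] at b3
  rw [← hy'] at b4
  have pxy : p = x' * y' := by
    calc p = (x * x') * (y * y') * p := by rw [ndU, ndV]; ring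
      _ = (x * p * y) * (x' * y') := by ring
      _ = _ := by rw [nd, one_mul]
  have p1 : p ≤ 36 := by
    rw [pxy]
    calc x' * y' ≤ 6 * 6 := mul_le_mul b2 b4 y0' (by norm_num)
      _ = 36 := by norm_num
  have p2 : 1 / 36 ≤ p := by
    have h1 : 1 ≤ 36 * p := by
      calc 1 = x * p * y := nd.symm
        _ ≤ 6 * p * 6 := by
            refine mul_le_mul (mul_le_mul_of_nonneg_right b1 p0) b3 y0 (by positivity)
        _ = 36 * p := by ring
    linarith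
  have pp : 0 < p := by linarith
  have hpe : p = ‖a 0‖ * ‖a 1‖ * ‖a 2‖ := by rw [hp, norm_mul, norm_mul]
  have ha0 : 0 < ‖a 0‖ := by
    refine lt_of_le_of_ne (norm_nonneg _) fun h0 => ?_
    rw [hpe, ← h0] at pp; simp at pp
  have ha1 : 0 < ‖a 1‖ := by
    refine lt_of_le_of_ne (norm_nonneg _) fun h0 => ?_
    rw [hpe, ← h0] at pp; simp at pp
  have ha2 : 0 < ‖a 2‖ := by
    refine lt_of_le_of_ne (norm_nonneg _) fun h0 => ?_
    rw [hpe, ← h0] at pp; simp at pp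
  have lsum : Real.log p = Real.log ‖a 0‖ + Real.log ‖a 1‖ + Real.log ‖a 2‖ := by
    rw [hpe, Real.log_mul (by positivity) ha2.ne', Real.log_mul ha0.ne' ha1.ne']
  have l1 : Real.log p ≤ Real.log 36 := Real.log_le_log pp p1
  have l2 : -Real.log 36 ≤ Real.log p := by
    have := Real.log_le_log (by norm_num) p2
    rwa [one_div, Real.log_inv] at this
  have A1 : ‖a 1‖ ≤ ‖a 0‖ := H.anti (by decide : (0 : Fin 3) ≤ 1)
  have A2 : ‖a 2‖ ≤ ‖a 1‖ := H.anti (by decide : (1 : Fin 3) ≤ 2)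
  -- the inverse
  have hdh : h.1.det ≠ 0 := by rw [h.2]; exact one_ne_zero
  have hinv : (h⁻¹).1 = V' * diagonal (fun i => (a i)⁻¹) * U' := H.inv hdh (by
    rw [← Matrix.SpecialLinearGroup.coe_mul, inv_mul_cancel, Matrix.SpecialLinearGroup.coe_one])
  have q1 : nm h ≤ 3 * ‖a 0‖ := by
    refine nm_le (by positivity) fun i j => ?_
    rw [H.eq]
    refine entry_le3 H.hU H.hV (fun l => ?_) i j
    fin_cases l
    · exact le_rfl
    · exact A1
    · exact A2.trans A1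
  have q2 : nm h⁻¹ ≤ 3 * ‖a 2‖⁻¹ := by
    refine nm_le (by positivity) fun i j => ?_
    rw [hinv]
    refine entry_le3 H.hV' H.hU' (fun l => ?_) i j
    rw [norm_inv]
    fin_cases l
    · exact inv_anti₀ ha2 (A2.trans A1)
    · exact inv_anti₀ ha2 A2
    · exact le_rfl
  have q3 : ‖a 0‖ ≤ 9 * nm h := by
    have e2 := entry_le3' H.hU' H.hV' (ent_le h) 0 0
    rwa [← H.diag, diagonal_apply_eq] at e2
  have q4 : ‖a 2‖⁻¹ ≤ 9 * nm h⁻¹ := by
    have e : diagonal (fun i => (a i)⁻¹) = V * (h⁻¹).1 * U := by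
      rw [hinv]
      calc diagonal (fun i => (a i)⁻¹) = (V * V') * diagonal (fun i => (a i)⁻¹) * (U' * U) := by
            rw [H.uu', H.vv, Matrix.one_mul, Matrix.mul_one]
        _ = _ := by simp only [Matrix.mul_assoc]
    have e2 := entry_le3' H.hV H.hU (ent_le h⁻¹) 2 2
    rwa [← e, diagonal_apply_eq, norm_inv] at e2
  have n1 := nm_pos h
  have n2 := nm_pos h⁻¹
  have m1 := Real.log_le_log n1 q1
  have m2 := Real.log_le_log n2 q2
  have m3 := Real.log_le_log ha0 q3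
  have m4 := Real.log_le_log (inv_pos.mpr ha2) q4
  rw [Real.log_mul (by norm_num) ha0.ne'] at m1
  rw [Real.log_mul (by norm_num) (inv_pos.mpr ha2).ne', Real.log_inv] at m2
  rw [Real.log_mul (by norm_num) n1.ne'] at m3
  rw [Real.log_mul (by norm_num) n2.ne', Real.log_inv] at m4
  unfold ga gb cc
  constructor <;> linarith

end crt

/-- **The system of gauges of a homomorphism to `SL_3` of a local field**, with the comparison of
the gaps. -/
theorem gsysK {k : Type} [NontriviallyNormedField k] [ProperSpace k] (hk : LocK k) {Γ : Type}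
    [Group Γ] (q : Γ →* G3 k) :
    ∃ (gap : Fin 2 → Γ → ℝ) (w : Γ → ℝ), GSys gap w ∧
      (∀ R : ℝ, ∃ R' : ℝ, ∀ g, w g ≤ R → nm (q g) ≤ R') ∧
      ∃ C : ℝ, ∀ g, ga (q g) ≤ gap 0 g + C ∧ gb (q g) ≤ gap 1 g + C := by
  obtain ⟨gap, w, hsys, hw, C, hC⟩ := gsys_crt hk (by norm_num : 0 < 3) q
  refine ⟨gap, w, hsys, fun R => ?_, C + cc, fun g => ?_⟩
  · obtain ⟨R', hR'⟩ := hw R
    exact ⟨max R' 0, fun g hg => nm_le (le_max_right _ _) fun i j =>
      (hR' g hg i j).trans (le_max_left _ _)⟩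
  · obtain ⟨a, U, U', V, V', H, hgap⟩ := hC g
    obtain ⟨h1, h2⟩ := H.gaps3
    have e0 : Real.log ‖a 0‖ - Real.log ‖a 1‖ ≤ gap 0 g + C := hgap 0 (by norm_num)
    have e1 : Real.log ‖a 1‖ - Real.log ‖a 2‖ ≤ gap 1 g + C := hgap 1 (by norm_num)
    constructor <;> linarith

end Vale.Agent.P092.H534.GK
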