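import Vale.Agent.P092.SD.Defs

/-!
P092 (helper534), one simple factor `SL_3(k)`, `k` any local field: sizes of matrices, the pivot
column, projective distances.
-/

set_option linter.all false

open scoped LinearAlgebra.Projectivization
open Filter Topology Matrix

namespace Vale.Agent.P092.H534.GK

open Vale.Agent.P092.SD (G3 PP pt nm NW)
open Vale.Agent.P092.H820 (pj pj_continuous wd pj_eq_iff wd_continuous)

section norms

variable {k : Type} [NontriviallyNormedField k]

theorem ent_le (h : G3 k) (i j : Fin 3) : ‖h.1 i j‖ ≤ nm h :=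
  (norm_le_pi_norm (fun j => h.1 i j : Fin 3 → k) j).trans
    (norm_le_pi_norm (fun i j => h.1 i j : Fin 3 → Fin 3 → k) i)

theorem nm_le {h : G3 k} {C : ℝ} (hC : 0 ≤ C) (hh : ∀ i j, ‖h.1 i j‖ ≤ C) : nm h ≤ C := by
  unfold nm
  rw [pi_norm_le_iff_of_nonneg hC]
  intro i
  rw [pi_norm_le_iff_of_nonneg hC]
  exact hh i

theorem nm_nonneg (h : G3 k) : 0 ≤ nm h := norm_nonneg _

theorem exists_piv (h : G3 k) : ∃ p : Fin 3 × Fin 3, ‖h.1 p.1 p.2‖ = nm h := by
  obtain ⟨p, hp⟩ := Finite.exists_max (fun p : Fin 3 × Fin 3 => ‖h.1 p.1 p.2‖)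
  exact ⟨p, le_antisymm (ent_le h _ _) (nm_le (norm_nonneg _) fun i j => hp (i, j))⟩

theorem nm_mul (g h : G3 k) : nm (g * h) ≤ 3 * nm g * nm h := by
  have h1 := nm_nonneg g
  have h2 := nm_nonneg h
  refine nm_le (by positivity) fun i j => ?_
  rw [Matrix.SpecialLinearGroup.coe_mul, Matrix.mul_apply, Fin.sum_univ_three]
  have e : ∀ l, ‖g.1 i l * h.1 l j‖ ≤ nm g * nm h := fun l => by
    rw [norm_mul]
    exact mul_le_mul (ent_le g i l) (ent_le h l j) (norm_nonneg _) h1
  calc _ ≤ ‖g.1 i 0 * h.1 0 j‖ + ‖g.1 i 1 * h.1 1 j‖ + ‖g.1 i 2 * h.1 2 j‖ := norm_add₃_le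
    _ ≤ nm g * nm h + nm g * nm h + nm g * nm h := add_le_add (add_le_add (e 0) (e 1)) (e 2)
    _ = _ := by ring

/-- The `2 × 2` minors are bounded by the size of the inverse. -/
theorem minor_le (h : G3 k) (a b i j : Fin 3) :
    ‖h.1 a b * h.1 i j - h.1 a j * h.1 i b‖ ≤ nm h⁻¹ := by
  have e := ent_le h⁻¹
  rw [Matrix.SpecialLinearGroup.coe_inv, Matrix.adjugate_fin_three] at e
  have e00 := e 0 0
  have e01 := e 0 1
  have e02 := e 0 2
  have e10 := e 1 0
  have e11 := e 1 1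
  have e12 := e 1 2
  have e20 := e 2 0
  have e21 := e 2 1
  have e22 := e 2 2
  simp only [Matrix.of_apply, Matrix.cons_val', Matrix.cons_val_zero, Matrix.cons_val_one,
    Matrix.cons_val] at e00 e01 e02 e10 e11 e12 e20 e21 e22
  have key : ∀ a b i j : Fin 3, a < i → b < j →
      ‖h.1 a b * h.1 i j - h.1 a j * h.1 i b‖ ≤ nm h⁻¹ := by
    have h01 : (0 : Fin 3) < 1 := by decide
    intro a b i j hai hbj
    have f : ∀ x y : k, x = y ∨ x = -y → ‖y‖ ≤ nm h⁻¹ → ‖x‖ ≤ nm h⁻¹ := by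
      intro x y hxy hy
      rcases hxy with rfl | rfl
      · exact hy
      · rwa [norm_neg]
    fin_cases a <;> fin_cases i <;> (try exact absurd hai (by decide)) <;>
      fin_cases b <;> fin_cases j <;> (try exact absurd hbj (by decide))
    · exact f _ _ (by left; simp only [Fin.zero_eta, Fin.mk_one, Fin.reduceFinMk]; try ring) e22
    · exact f _ _ (by right; simp only [Fin.zero_eta, Fin.mk_one, Fin.reduceFinMk]; try ring) e12
    · exact f _ _ (by left; simp only [Fin.zero_eta, Fin.mk_one, Fin.reduceFinMk]; try ring) e02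
    · exact f _ _ (by right; simp only [Fin.zero_eta, Fin.mk_one, Fin.reduceFinMk]; try ring) e21
    · exact f _ _ (by left; simp only [Fin.zero_eta, Fin.mk_one, Fin.reduceFinMk]; try ring) e11
    · exact f _ _ (by right; simp only [Fin.zero_eta, Fin.mk_one, Fin.reduceFinMk]; try ring) e01
    · exact f _ _ (by left; simp only [Fin.zero_eta, Fin.mk_one, Fin.reduceFinMk]; try ring) e20
    · exact f _ _ (by right; simp only [Fin.zero_eta, Fin.mk_one, Fin.reduceFinMk]; try ring) e10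
    · exact f _ _ (by left; simp only [Fin.zero_eta, Fin.mk_one, Fin.reduceFinMk]; try ring) e00
  rcases lt_trichotomy a i with h1 | h1 | h1
  · rcases lt_trichotomy b j with h2 | h2 | h2
    · exact key a b i j h1 h2
    · subst h2; rw [sub_self, norm_zero]; exact nm_nonneg _
    · rw [← norm_neg, neg_sub]; exact key a j i b h1 h2
  · subst h1
    rw [mul_comm, sub_self, norm_zero]; exact nm_nonneg _
  · rcases lt_trichotomy b j with h2 | h2 | h2
    · have := key i b a j h1 h2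
      rw [← norm_neg, neg_sub, mul_comm (h.1 a j), mul_comm (h.1 a b)]
      exact this
    · subst h2; rw [sub_self, norm_zero]; exact nm_nonneg _
    · have := key i j a b h1 h2
      rw [mul_comm (h.1 a b), mul_comm (h.1 a j)]
      exact this

theorem nm_inv_le (h : G3 k) : nm h⁻¹ ≤ 2 * nm h ^ 2 := by
  have h0 := nm_nonneg h
  have f : ∀ a b c d : Fin 3, ∀ x : k, (x = h.1 a b * h.1 c d - h.1 a d * h.1 c b ∨
      x = -(h.1 a b * h.1 c d - h.1 a d * h.1 c b)) → ‖x‖ ≤ 2 * nm h ^ 2 := by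
    intro a b c d x hx
    have e : ‖h.1 a b * h.1 c d - h.1 a d * h.1 c b‖ ≤ 2 * nm h ^ 2 := by
      refine (norm_sub_le _ _).trans ?_
      rw [norm_mul, norm_mul]
      have h1 := mul_le_mul (ent_le h a b) (ent_le h c d) (norm_nonneg _) h0
      have h2 := mul_le_mul (ent_le h a d) (ent_le h c b) (norm_nonneg _) h0
      nlinarith
    rcases hx with rfl | rfl
    · exact e
    · rwa [norm_neg]
  refine nm_le (by positivity) fun i j => ?_
  rw [Matrix.SpecialLinearGroup.coe_inv, Matrix.adjugate_fin_three]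
  fin_cases i <;> fin_cases j
  · exact f 1 1 2 2 _ (by left; simp; try ring)
  · exact f 0 1 2 2 _ (by right; simp; try ring)
  · exact f 0 1 1 2 _ (by left; simp; try ring)
  · exact f 1 0 2 2 _ (by right; simp; try ring)
  · exact f 0 0 2 2 _ (by left; simp; try ring)
  · exact f 0 0 1 2 _ (by right; simp; try ring)
  · exact f 1 0 2 1 _ (by left; simp; try ring)
  · exact f 0 0 2 1 _ (by right; simp; try ring)
  · exact f 0 0 1 1 _ (by left; simp; try ring)

theorem one_le_nm_mul (h : G3 k) : 1 ≤ 3 * nm h * nm h⁻¹ := by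
  have h1 := nm_mul h h⁻¹
  rw [mul_inv_cancel] at h1
  refine le_trans ?_ h1
  have h2 := ent_le (1 : G3 k) 0 0
  simpa using h2

theorem half_le_nm (h : G3 k) : 1 / 2 ≤ nm h := by
  by_contra hc
  push Not at hc
  have h0 := nm_nonneg h
  have h1 := one_le_nm_mul h
  have h2 := nm_inv_le h
  have h3 : 3 * nm h * nm h⁻¹ ≤ 3 * nm h * (2 * nm h ^ 2) :=
    mul_le_mul_of_nonneg_left h2 (by positivity)
  have h4 : 3 * nm h * (2 * nm h ^ 2) = 6 * nm h ^ 3 := by ring
  have h5 : nm h ^ 3 ≤ (1 / 2) ^ 3 := pow_le_pow_left₀ h0 hc.le 3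
  norm_num at h5
  linarith

theorem nm_pos (h : G3 k) : 0 < nm h := lt_of_lt_of_le (by norm_num) (half_le_nm h)

theorem nm_le_inv (h : G3 k) : nm h ≤ 2 * nm h⁻¹ ^ 2 := by
  have := nm_inv_le h⁻¹
  rwa [inv_inv] at this

/-- Size of a product of three factors. -/
theorem nm_mul3 (s x u : G3 k) : nm (s * x * u) ≤ 9 * nm s * nm u * nm x := by
  have h1 := nm_mul (s * x) u
  have h2 := nm_mul s x
  have h3 := nm_nonneg u
  calc _ ≤ 3 * nm (s * x) * nm u := h1
    _ ≤ 3 * (3 * nm s * nm x) * nm u := by gcongr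
    _ = _ := by ring

/-- The constant of quasi-invariance. -/
noncomputable def qc (s u : G3 k) : ℝ :=
  |Real.log (9 * nm s * nm u)| + |Real.log (9 * nm s⁻¹ * nm u⁻¹)|

theorem log_nm_le (s x u : G3 k) :
    |Real.log (nm (s * x * u)) - Real.log (nm x)| ≤ qc s u := by
  have p1 := nm_pos s
  have p2 := nm_pos u
  have p3 := nm_pos x
  have p4 := nm_pos (s * x * u)
  have p5 := nm_pos s⁻¹
  have p6 := nm_pos u⁻¹
  have h1 := Real.log_le_log p4 (nm_mul3 s x u)
  have h2 : nm x ≤ 9 * nm s⁻¹ * nm u⁻¹ * nm (s * x * u) := by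
    have h3 := nm_mul3 s⁻¹ (s * x * u) u⁻¹
    have h4 : s⁻¹ * (s * x * u) * u⁻¹ = x := by group
    rwa [h4] at h3
  have h3 := Real.log_le_log p3 h2
  rw [Real.log_mul (by positivity) p3.ne'] at h1
  rw [Real.log_mul (by positivity) p4.ne'] at h3
  have a1 := le_abs_self (Real.log (9 * nm s * nm u))
  have a2 := le_abs_self (Real.log (9 * nm s⁻¹ * nm u⁻¹))
  have a3 := abs_nonneg (Real.log (9 * nm s * nm u))
  have a4 := abs_nonneg (Real.log (9 * nm s⁻¹ * nm u⁻¹))
  unfold qc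
  rw [abs_le]
  constructor <;> linarith

/-- The first gap (up to constants): `log (σ₁ / σ₂)`. -/
noncomputable def ga (h : G3 k) : ℝ := 2 * Real.log (nm h) - Real.log (nm h⁻¹)

/-- The second gap: `log (σ₂ / σ₃)`. -/
noncomputable def gb (h : G3 k) : ℝ := 2 * Real.log (nm h⁻¹) - Real.log (nm h)

theorem ga_inv (h : G3 k) : ga h⁻¹ = gb h := by
  unfold ga gb; rw [inv_inv]

theorem gb_inv (h : G3 k) : gb h⁻¹ = ga h := by
  unfold ga gb; rw [inv_inv]

theorem gap_qi (s u : G3 k) : ∃ C, ∀ x : G3 k, |ga (s * x * u) - ga x| ≤ C ∧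
    |gb (s * x * u) - gb x| ≤ C := by
  refine ⟨2 * qc s u + 2 * qc u⁻¹ s⁻¹, fun x => ?_⟩
  have h1 := log_nm_le s x u
  have h2 := log_nm_le u⁻¹ x⁻¹ s⁻¹
  have e : u⁻¹ * x⁻¹ * s⁻¹ = (s * x * u)⁻¹ := by group
  rw [e] at h2
  unfold ga gb
  rw [abs_le] at h1 h2
  constructor <;> rw [abs_le] <;> constructor <;> linarith [h1.1, h1.2, h2.1, h2.2]

theorem nm_le_of_gap {h : G3 k} {r : ℝ} (h1 : ga h ≤ r) (h2 : gb h ≤ r) :
    nm h ≤ 2 * Real.exp (2 * r) := by
  have p := nm_pos h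
  have p' := nm_pos h⁻¹
  have h3 : Real.log (1 / 2) ≤ Real.log (nm h⁻¹) := Real.log_le_log (by norm_num) (half_le_nm _)
  unfold ga at h1
  unfold gb at h2
  have h4 : Real.log (nm h) ≤ 2 * r - Real.log (1 / 2) := by linarith
  have h5 := (Real.log_le_iff_le_exp p).mp h4
  refine h5.trans (le_of_eq ?_)
  rw [Real.exp_sub, Real.exp_log (by norm_num)]
  ring

theorem nm_le_of_gap' {h : G3 k} {r : ℝ} (h1 : ga h ≤ r) (h2 : gb h ≤ r) :
    nm h⁻¹ ≤ 2 * Real.exp (2 * r) :=
  nm_le_of_gap (h := h⁻¹) (by rwa [ga_inv]) (by rwa [gb_inv])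

/-- Bounded second gap: near the wall. -/
theorem nw_of_gb {r : ℝ} {h : G3 k} (hg : gb h ≤ r) : NW (Real.exp r) h := by
  unfold NW
  unfold gb at hg
  have p := nm_pos h
  have p' := nm_pos h⁻¹
  have h1 : Real.log (nm h⁻¹ ^ 2) ≤ Real.log (Real.exp r * nm h) := by
    rw [Real.log_pow, Real.log_mul (Real.exp_pos r).ne' p.ne', Real.log_exp]
    push_cast
    linarith
  exact (Real.log_le_log_iff (by positivity) (by positivity)).mp h1

theorem gb_of_nw {R : ℝ} {h : G3 k} (hn : NW R h) : gb h ≤ Real.log R := by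
  unfold NW at hn
  have p := nm_pos h
  have p' := nm_pos h⁻¹
  have hR : 0 < R := by
    by_contra hc
    push Not at hc
    have : R * nm h ≤ 0 := mul_nonpos_of_nonpos_of_nonneg hc p.le
    nlinarith [pow_pos p' 2]
  have h1 := Real.log_le_log (by positivity) hn
  rw [Real.log_pow, Real.log_mul hR.ne' p.ne'] at h1
  push_cast at h1
  unfold gb
  linarith

theorem exp_ga (h : G3 k) : Real.exp (ga h) = nm h ^ 2 / nm h⁻¹ := by
  unfold ga
  rw [Real.exp_sub, Real.exp_log (nm_pos _), two_mul, Real.exp_add, Real.exp_log (nm_pos _), sq]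

end norms

end Vale.Agent.P092.H534.GK
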