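import Vale.Agent.P092.H534.GK1
import Vale.Agent.P092.H859.CLD

/-!
P092 (helper534), one simple factor `SL_3(k)`, `k` any local field: the geometry `GeoF` of the wall
limits.
-/

set_option linter.all false

open scoped LinearAlgebra.Projectivization
open Filter Topology Matrix

namespace Vale.Agent.P092.H534.GK

open Vale.Agent.P092.SD (G3 PP pt nm NW)
open Vale.Agent.P092.H820 (pj pj_continuous wd pj_eq_iff wd_continuous)
open Vale.Agent.P092.H859.CL (BB FF cn SepP GeoF)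

section plane

variable {k : Type} [NontriviallyNormedField k]

theorem pt_smul (v : Fin 3 → k) (hv : v ≠ 0) (c : k) (hc : c • v ≠ 0) :
    pt k (c • v) hc = pt k v hv := by
  unfold pt
  rw [Projectivization.mk_eq_mk_iff']
  exact ⟨c, rfl⟩

theorem pt_congr {v w : Fin 3 → k} (h : v = w) (hv : v ≠ 0) (hw : w ≠ 0) :
    pt k v hv = pt k w hw := by
  subst h; rfl

theorem wd_smul (a b : k) (v w : Fin 3 → k) : wd (a • v) (b • w) = (a * b) • wd v w := by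
  funext p
  simp only [wd, Pi.smul_apply, smul_eq_mul]
  ring

theorem wd_sub_smul (a b : k) (v w : Fin 3 → k) : wd (a • v - b • w) w = a • wd v w := by
  funext p
  simp only [wd, Pi.smul_apply, Pi.sub_apply, smul_eq_mul]
  ring

theorem wd_sub_smul' (a b : k) (v w : Fin 3 → k) : wd v (a • v - b • w) = -(b • wd v w) := by
  funext p
  simp only [wd, Pi.smul_apply, Pi.sub_apply, Pi.neg_apply, smul_eq_mul]
  ring

theorem norm_wd_le (v w : Fin 3 → k) : ‖wd v w‖ ≤ 2 * ‖v‖ * ‖w‖ := by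
  rw [pi_norm_le_iff_of_nonneg (by positivity)]
  intro p
  have h1 := norm_le_pi_norm v p.1
  have h2 := norm_le_pi_norm v p.2
  have h3 := norm_le_pi_norm w p.1
  have h4 := norm_le_pi_norm w p.2
  calc ‖wd v w p‖ ≤ ‖v p.1 * w p.2‖ + ‖v p.2 * w p.1‖ := norm_sub_le _ _
    _ ≤ ‖v‖ * ‖w‖ + ‖v‖ * ‖w‖ := by
        rw [norm_mul, norm_mul]
        gcongr
    _ = _ := by ring

variable [ProperSpace k]

theorem isCompact_shell (a b : ℝ) : IsCompact {v : Fin 3 → k | a ≤ ‖v‖ ∧ ‖v‖ ≤ b} := by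
  refine (isCompact_closedBall (0 : Fin 3 → k) b).of_isClosed_subset ?_ fun v hv => ?_
  · exact (isClosed_le continuous_const continuous_norm).inter
      (isClosed_le continuous_norm continuous_const)
  · rw [mem_closedBall_zero_iff]; exact hv.2

/-- Uniform continuity of functions of the plane. -/
theorem uc {F : Type} [PseudoMetricSpace F] {f : PP k → F} (hf : Continuous f) {ε : ℝ}
    (hε : 0 < ε) : ∃ δ : ℝ, 0 < δ ∧ ∀ (v w : Fin 3 → k) (hv : v ≠ 0) (hw : w ≠ 0),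
      ‖v - w‖ ≤ δ * ‖v‖ → dist (f (pt k v hv)) (f (pt k w hw)) < ε := by
  obtain ⟨c, hc⟩ := NormedField.exists_one_lt_norm k
  have hc0 : 0 < ‖c‖ := one_pos.trans hc
  -- the compact shell, as a set of nonzero vectors
  obtain ⟨S, hS⟩ : ∃ S : Set {v : Fin 3 → k // v ≠ 0},
    S = {v | (2 * ‖c‖)⁻¹ ≤ ‖v.1‖ ∧ ‖v.1‖ ≤ 2} := ⟨_, rfl⟩
  have hSc : IsCompact S := by
    have h1 : IsCompact {v : Fin 3 → k | (2 * ‖c‖)⁻¹ ≤ ‖v‖ ∧ ‖v‖ ≤ 2} := isCompact_shell _ _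
    have h2 : S = (Subtype.val : {v : Fin 3 → k // v ≠ 0} → (Fin 3 → k)) ⁻¹'
        {v : Fin 3 → k | (2 * ‖c‖)⁻¹ ≤ ‖v‖ ∧ ‖v‖ ≤ 2} := by rw [hS]; rfl
    rw [h2]
    refine (Topology.IsInducing.subtypeVal.isCompact_preimage_iff ?_).mpr h1
    · intro v hv
      refine ⟨⟨v, ?_⟩, rfl⟩
      rintro rfl
      have h3 : (2 * ‖c‖)⁻¹ ≤ 0 := by simpa using hv.1
      have h4 : 0 < (2 * ‖c‖)⁻¹ := by positivity
      linarith
  have hF : ContinuousOn (fun v : {v : Fin 3 → k // v ≠ 0} => f (pj k (Fin 3) v)) S :=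
    (hf.comp pj_continuous).continuousOn
  have hu := hSc.uniformContinuousOn_of_continuous hF
  rw [Metric.uniformContinuousOn_iff] at hu
  obtain ⟨δ, hδ, h⟩ := hu ε hε
  refine ⟨min (δ / 2) (2 * ‖c‖)⁻¹, by positivity, fun v w hv hw hvw => ?_⟩
  obtain ⟨d, hd0, hd1, hd2, -⟩ := rescale_to_shell hc one_pos hv
  have hdv : d • v ≠ 0 := smul_ne_zero hd0 hv
  have hdw : d • w ≠ 0 := smul_ne_zero hd0 hw
  rw [← pt_smul v hv d hdv, ← pt_smul w hw d hdw]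
  have e1 : ‖d • v - d • w‖ ≤ min (δ / 2) (2 * ‖c‖)⁻¹ := by
    rw [← smul_sub, norm_smul]
    calc ‖d‖ * ‖v - w‖ ≤ ‖d‖ * (min (δ / 2) (2 * ‖c‖)⁻¹ * ‖v‖) := by gcongr
      _ = min (δ / 2) (2 * ‖c‖)⁻¹ * ‖d • v‖ := by rw [norm_smul]; ring
      _ ≤ min (δ / 2) (2 * ‖c‖)⁻¹ * 1 := by gcongr
      _ = _ := mul_one _
  have hi : (2 * ‖c‖)⁻¹ ≤ 1 / 2 := by
    rw [mul_inv]
    have : ‖c‖⁻¹ ≤ 1 := inv_le_one_of_one_le₀ hc.le
    linarith
  have hi2 : 1 / ‖c‖ = 2 * (2 * ‖c‖)⁻¹ := by field_simp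
  have e2 : ‖d • v‖ - ‖d • w‖ ≤ ‖d • v - d • w‖ := norm_sub_norm_le _ _
  have e3 : ‖d • w‖ - ‖d • v‖ ≤ ‖d • v - d • w‖ := by
    rw [norm_sub_rev]; exact norm_sub_norm_le _ _
  have e4 : min (δ / 2) (2 * ‖c‖)⁻¹ ≤ (2 * ‖c‖)⁻¹ := min_le_right _ _
  have e5 : 0 < (2 * ‖c‖)⁻¹ := by positivity
  refine h ⟨d • v, hdv⟩ ?_ ⟨d • w, hdw⟩ ?_ ?_
  · rw [hS]
    refine ⟨?_, ?_⟩
    · change (2 * ‖c‖)⁻¹ ≤ ‖d • v‖
      rw [hi2] at hd2
      linarith
    · change ‖d • v‖ ≤ 2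
      linarith
  · rw [hS]
    refine ⟨?_, ?_⟩
    · change (2 * ‖c‖)⁻¹ ≤ ‖d • w‖
      rw [hi2] at hd2
      linarith
    · change ‖d • w‖ ≤ 2
      linarith
  · rw [Subtype.dist_eq, dist_eq_norm]
    have : min (δ / 2) (2 * ‖c‖)⁻¹ ≤ δ / 2 := min_le_left _ _
    linarith

/-- Disjoint closed sets of points are separated. -/
theorem exists_sep {A A' : Set (PP k)} (hA : IsClosed A) (hA' : IsClosed A')
    (hd : Disjoint A A') : ∃ δ : ℝ, 0 < δ ∧ ∀ (v w : Fin 3 → k) (hv : v ≠ 0) (hw : w ≠ 0),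
      pt k v hv ∈ A → pt k w hw ∈ A' → ∀ a b : k,
        δ * ‖a • v‖ ≤ ‖a • v - b • w‖ ∧ δ * ‖b • w‖ ≤ ‖a • v - b • w‖ := by
  obtain ⟨c, hc⟩ := NormedField.exists_one_lt_norm k
  have hc0 : 0 < ‖c‖ := one_pos.trans hc
  obtain ⟨S, hS⟩ : ∃ S : Set {v : Fin 3 → k // v ≠ 0},
    S = {v | ‖c‖⁻¹ ≤ ‖v.1‖ ∧ ‖v.1‖ ≤ 1} := ⟨_, rfl⟩
  have hSc : IsCompact S := by
    have h1 : IsCompact {v : Fin 3 → k | ‖c‖⁻¹ ≤ ‖v‖ ∧ ‖v‖ ≤ 1} := isCompact_shell _ _
    have h2 : S = (Subtype.val : {v : Fin 3 → k // v ≠ 0} → (Fin 3 → k)) ⁻¹'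
        {v : Fin 3 → k | ‖c‖⁻¹ ≤ ‖v‖ ∧ ‖v‖ ≤ 1} := by rw [hS]; rfl
    rw [h2]
    refine (Topology.IsInducing.subtypeVal.isCompact_preimage_iff ?_).mpr h1
    · intro v hv
      refine ⟨⟨v, ?_⟩, rfl⟩
      rintro rfl
      have h3 : ‖c‖⁻¹ ≤ 0 := by simpa using hv.1
      have h4 : 0 < ‖c‖⁻¹ := by positivity
      linarith
  obtain ⟨P, hP⟩ : ∃ P : Set ({v : Fin 3 → k // v ≠ 0} × {v : Fin 3 → k // v ≠ 0}),
    P = (S ∩ pj k (Fin 3) ⁻¹' A) ×ˢ (S ∩ pj k (Fin 3) ⁻¹' A') := ⟨_, rfl⟩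
  have hPc : IsCompact P := by
    rw [hP]
    exact (hSc.inter_right (hA.preimage pj_continuous)).prod
      (hSc.inter_right (hA'.preimage pj_continuous))
  -- the minimum of the wedge
  have h0 : ∃ δ : ℝ, 0 < δ ∧ ∀ p ∈ P, δ ≤ ‖wd p.1.1 p.2.1‖ := by
    rcases P.eq_empty_or_nonempty with he | hne
    · exact ⟨1, one_pos, fun p hp => by rw [he] at hp; exact absurd hp (Set.notMem_empty _)⟩
    · have hcont : ContinuousOn (fun p : {v : Fin 3 → k // v ≠ 0} × {v : Fin 3 → k // v ≠ 0} =>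
          ‖wd p.1.1 p.2.1‖) P := by
        refine Continuous.continuousOn ?_
        refine Continuous.norm ?_
        unfold wd
        refine continuous_pi fun q => ?_
        have c1 : Continuous fun p : {v : Fin 3 → k // v ≠ 0} × {v : Fin 3 → k // v ≠ 0} =>
          p.1.1 := continuous_subtype_val.comp continuous_fst
        have c2 : Continuous fun p : {v : Fin 3 → k // v ≠ 0} × {v : Fin 3 → k // v ≠ 0} =>
          p.2.1 := continuous_subtype_val.comp continuous_snd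
        exact (((continuous_apply q.1).comp c1).mul ((continuous_apply q.2).comp c2)).sub
          (((continuous_apply q.2).comp c1).mul ((continuous_apply q.1).comp c2))
      obtain ⟨p, hp, hmin⟩ := hPc.exists_isMinOn hne hcont
      refine ⟨‖wd p.1.1 p.2.1‖, ?_, fun q hq => hmin hq⟩
      rw [norm_pos_iff]
      intro h
      have h1 := (pj_eq_iff p.1 p.2).mpr h
      rw [hP] at hp
      exact Set.disjoint_left.mp hd hp.1.2 (by rw [h1]; exact hp.2.2)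
  obtain ⟨δ, hδ, hmin⟩ := h0
  have h1 : ∀ (v w : Fin 3 → k) (hv : v ≠ 0) (hw : w ≠ 0), pt k v hv ∈ A → pt k w hw ∈ A' →
      δ * ‖v‖ * ‖w‖ ≤ ‖wd v w‖ := by
    intro v w hv hw hvA hwA
    obtain ⟨d, hd0, hd1, hd2, -⟩ := rescale_to_shell hc one_pos hv
    obtain ⟨e, he0, he1, he2, -⟩ := rescale_to_shell hc one_pos hw
    have hdv : d • v ≠ 0 := smul_ne_zero hd0 hv
    have hew : e • w ≠ 0 := smul_ne_zero he0 hw
    have h2 := hmin (⟨d • v, hdv⟩, ⟨e • w, hew⟩) (by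
      rw [hP, hS]
      refine ⟨⟨⟨?_, hd1.le⟩, ?_⟩, ⟨?_, he1.le⟩, ?_⟩
      · rw [one_div] at hd2; exact hd2
      · change pt k (d • v) hdv ∈ A
        rw [pt_smul v hv d hdv]; exact hvA
      · rw [one_div] at he2; exact he2
      · change pt k (e • w) hew ∈ A'
        rw [pt_smul w hw e hew]; exact hwA)
    change δ ≤ ‖wd (d • v) (e • w)‖ at h2
    rw [wd_smul, norm_smul, norm_mul] at h2
    have h3 : 0 < ‖d‖ := norm_pos_iff.mpr hd0
    have h4 : 0 < ‖e‖ := norm_pos_iff.mpr he0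
    rw [norm_smul] at hd1 he1
    have h5 : δ * (‖d‖ * ‖v‖ * (‖e‖ * ‖w‖)) ≤ δ := by
      have := mul_le_one₀ hd1.le (by positivity) he1.le
      calc δ * (‖d‖ * ‖v‖ * (‖e‖ * ‖w‖)) ≤ δ * 1 := by gcongr
        _ = δ := mul_one _
    have h6 : ‖d‖ * ‖e‖ * (δ * ‖v‖ * ‖w‖) ≤ ‖d‖ * ‖e‖ * ‖wd v w‖ := by
      calc _ = δ * (‖d‖ * ‖v‖ * (‖e‖ * ‖w‖)) := by ring
        _ ≤ δ := h5
        _ ≤ _ := h2
    exact le_of_mul_le_mul_left h6 (by positivity)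
  refine ⟨δ / 2, by positivity, fun v w hv hw hvA hwA a b => ?_⟩
  have h2 := h1 v w hv hw hvA hwA
  have hv0 : 0 < ‖v‖ := norm_pos_iff.mpr hv
  have hw0 : 0 < ‖w‖ := norm_pos_iff.mpr hw
  constructor
  · have h3 := norm_wd_le (a • v - b • w) w
    rw [wd_sub_smul, norm_smul] at h3
    have h4 : ‖a‖ * (δ * ‖v‖ * ‖w‖) ≤ 2 * ‖a • v - b • w‖ * ‖w‖ :=
      (mul_le_mul_of_nonneg_left h2 (norm_nonneg a)).trans h3
    rw [norm_smul]
    have h5 : δ / 2 * (‖a‖ * ‖v‖) * ‖w‖ ≤ ‖a • v - b • w‖ * ‖w‖ := by linarith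
    exact le_of_mul_le_mul_right h5 hw0
  · have h3 := norm_wd_le v (a • v - b • w)
    rw [wd_sub_smul', norm_neg, norm_smul] at h3
    have h4 : ‖b‖ * (δ * ‖v‖ * ‖w‖) ≤ 2 * ‖v‖ * ‖a • v - b • w‖ :=
      (mul_le_mul_of_nonneg_left h2 (norm_nonneg b)).trans h3
    rw [norm_smul]
    have h5 : δ / 2 * (‖b‖ * ‖w‖) * ‖v‖ ≤ ‖a • v - b • w‖ * ‖v‖ := by linarith
    exact le_of_mul_le_mul_right h5 hv0

end plane

section rank

variable {k : Type} [NontriviallyNormedField k]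

/-- The pivot. -/
noncomputable def piv (h : G3 k) : Fin 3 × Fin 3 := (exists_piv h).choose

theorem piv_spec (h : G3 k) : ‖h.1 (piv h).1 (piv h).2‖ = nm h := (exists_piv h).choose_spec

/-- The pivot column. -/
noncomputable def col (h : G3 k) : Fin 3 → k := fun a => h.1 a (piv h).2

/-- The pivot row, normalised. -/
noncomputable def row (h : G3 k) : Fin 3 → k := fun b =>
  h.1 (piv h).1 b / h.1 (piv h).1 (piv h).2

theorem norm_col (h : G3 k) : ‖col h‖ = nm h := by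
  refine le_antisymm ?_ ?_
  · rw [pi_norm_le_iff_of_nonneg (nm_nonneg h)]
    exact fun a => ent_le h a _
  · rw [← piv_spec h]
    exact norm_le_pi_norm (col h) (piv h).1

theorem col_ne (h : G3 k) : col h ≠ 0 := by
  rw [← norm_pos_iff, norm_col]; exact nm_pos h

theorem piv_ne (h : G3 k) : h.1 (piv h).1 (piv h).2 ≠ 0 := by
  rw [← norm_pos_iff, piv_spec]; exact nm_pos h

theorem row_piv (h : G3 k) : row h (piv h).2 = 1 := div_self (piv_ne h)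

theorem norm_row_le (h : G3 k) (b : Fin 3) : ‖row h b‖ ≤ 1 := by
  unfold row
  rw [norm_div, piv_spec, div_le_one (nm_pos h)]
  exact ent_le h _ _

/-- Close to rank one. -/
theorem rk_le (h : G3 k) (a b : Fin 3) : ‖h.1 a b - col h a * row h b‖ ≤ nm h⁻¹ / nm h := by
  have h0 := piv_ne h
  have e : h.1 a b - col h a * row h b =
      (h.1 a b * h.1 (piv h).1 (piv h).2 - h.1 a (piv h).2 * h.1 (piv h).1 b) /
        h.1 (piv h).1 (piv h).2 := by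
    unfold col row
    field_simp
  rw [e, norm_div, piv_spec]
  have := minor_le h a b (piv h).1 (piv h).2
  have := nm_pos h
  gcongr

/-- The attracting point. -/
noncomputable def bpk (h : G3 k) : PP k := pt k (col h) (col_ne h)

/-- Large first gap: `Att`. -/
theorem att_of_ga {T : ℝ} (hT : 0 < T) {h : G3 k} {A : Set (PP k)} (hA : bpk h ∈ A)
    (hg : Real.log T ≤ ga h) : SD.Att T A h := by
  refine ⟨col h, row h, col_ne h, hA, fun i j => (rk_le h i j).trans ?_⟩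
  have p := nm_pos h
  have p' := nm_pos h⁻¹
  rw [Real.log_le_iff_le_exp hT, exp_ga, le_div_iff₀ p'] at hg
  rw [div_le_div_iff₀ p hT]
  linarith [hg]

theorem rk_mulVec (h : G3 k) (z : Fin 3 → k) :
    ‖h.1 *ᵥ z - (row h ⬝ᵥ z) • col h‖ ≤ 3 * (nm h⁻¹ / nm h) * ‖z‖ := by
  have p := nm_pos h
  have p' := nm_pos h⁻¹
  rw [pi_norm_le_iff_of_nonneg (by positivity)]
  intro a
  have e : (h.1 *ᵥ z - (row h ⬝ᵥ z) • col h) a = (h.1 a 0 - col h a * row h 0) * z 0 +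
      (h.1 a 1 - col h a * row h 1) * z 1 + (h.1 a 2 - col h a * row h 2) * z 2 := by
    simp only [Pi.sub_apply, Pi.smul_apply, Matrix.mulVec, dotProduct, Fin.sum_univ_three,
      smul_eq_mul]
    ring
  rw [e]
  have f : ∀ b, ‖(h.1 a b - col h a * row h b) * z b‖ ≤ nm h⁻¹ / nm h * ‖z‖ := fun b => by
    rw [norm_mul]
    exact mul_le_mul (rk_le h a b) (norm_le_pi_norm z b) (norm_nonneg _) (by positivity)
  calc _ ≤ ‖(h.1 a 0 - col h a * row h 0) * z 0‖ + ‖(h.1 a 1 - col h a * row h 1) * z 1‖ +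
        ‖(h.1 a 2 - col h a * row h 2) * z 2‖ := norm_add₃_le
    _ ≤ nm h⁻¹ / nm h * ‖z‖ + nm h⁻¹ / nm h * ‖z‖ + nm h⁻¹ / nm h * ‖z‖ :=
        add_le_add (add_le_add (f 0) (f 1)) (f 2)
    _ = _ := by ring

theorem norm_mulVec_le (h : G3 k) (z : Fin 3 → k) : ‖h.1 *ᵥ z‖ ≤ 3 * nm h * ‖z‖ := by
  have p := nm_nonneg h
  rw [pi_norm_le_iff_of_nonneg (by positivity)]
  intro a
  rw [Matrix.mulVec, dotProduct, Fin.sum_univ_three]
  have f : ∀ b, ‖h.1 a b * z b‖ ≤ nm h * ‖z‖ := fun b => by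
    rw [norm_mul]
    exact mul_le_mul (ent_le h a b) (norm_le_pi_norm z b) (norm_nonneg _) p
  calc _ ≤ ‖h.1 a 0 * z 0‖ + ‖h.1 a 1 * z 1‖ + ‖h.1 a 2 * z 2‖ := norm_add₃_le
    _ ≤ nm h * ‖z‖ + nm h * ‖z‖ + nm h * ‖z‖ := add_le_add (add_le_add (f 0) (f 1)) (f 2)
    _ = _ := by ring

theorem inv_mulVec (h : G3 k) (z : Fin 3 → k) : (h⁻¹).1 *ᵥ (h.1 *ᵥ z) = z := by
  rw [Matrix.mulVec_mulVec, ← Matrix.SpecialLinearGroup.coe_mul, inv_mul_cancel]
  simp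

theorem mulVec_inv (h : G3 k) (z : Fin 3 → k) : h.1 *ᵥ ((h⁻¹).1 *ᵥ z) = z := by
  rw [Matrix.mulVec_mulVec, ← Matrix.SpecialLinearGroup.coe_mul, mul_inv_cancel]
  simp

theorem mulVec_ne (h : G3 k) {v : Fin 3 → k} (hv : v ≠ 0) : h.1 *ᵥ v ≠ 0 := by
  intro h0
  apply hv
  rw [← inv_mulVec h v, h0, Matrix.mulVec_zero]

theorem smul_pt (g : G3 k) (v : Fin 3 → k) (hv : v ≠ 0) :
    g • pt k v hv = pt k (g.1 *ᵥ v) (mulVec_ne g hv) := rfl

theorem col_eq (h : G3 k) : col h = h.1 *ᵥ Pi.single (piv h).2 1 := by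
  funext a
  rw [Matrix.mulVec_single_one]
  rfl

end rank

end Vale.Agent.P092.H534.GK
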