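import Vale.Agent.P092.H368.SN.Mod

/-!
P092 (helper534), [U3]: every nonarchimedean local field has an equivalent norm with
`mod w ≤ ‖w‖` for some `w` with `‖w‖ < 1`: the norm `‖x‖ ^ s`.
-/

set_option linter.all false

open MeasureTheory Filter Topology Set
open scoped Pointwise ENNReal

namespace Vale.Agent.P092.H534.Nrm

open Vale.Agent.P092.H368.SN (md md_pos md_lt_one measure_smul)

section av

variable {k : Type} [NontriviallyNormedField k] [IsUltrametricDist k] {s : ℝ}

/-- the absolute value `‖x‖ ^ s` -/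
noncomputable def av (k : Type) [NontriviallyNormedField k] [IsUltrametricDist k] {s : ℝ}
    (hs : 0 < s) : AbsoluteValue k ℝ where
  toFun x := ‖x‖ ^ s
  map_mul' x y := by rw [norm_mul, Real.mul_rpow (norm_nonneg _) (norm_nonneg _)]
  nonneg' x := Real.rpow_nonneg (norm_nonneg _) _
  eq_zero' x := by rw [Real.rpow_eq_zero (norm_nonneg _) hs.ne', norm_eq_zero]
  add_le' x y := by
    have h := IsUltrametricDist.norm_add_le_max x y
    rcases le_total ‖x‖ ‖y‖ with hxy | hxy
    · rw [max_eq_right hxy] at h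
      exact (Real.rpow_le_rpow (norm_nonneg _) h hs.le).trans
        (le_add_of_nonneg_left (Real.rpow_nonneg (norm_nonneg _) _))
    · rw [max_eq_left hxy] at h
      exact (Real.rpow_le_rpow (norm_nonneg _) h hs.le).trans
        (le_add_of_nonneg_right (Real.rpow_nonneg (norm_nonneg _) _))

/-- the field `k` with the norm `‖x‖ ^ s` -/
abbrev PW (k : Type) [NontriviallyNormedField k] [IsUltrametricDist k] {s : ℝ} (hs : 0 < s) :
    Type := WithAbs (av k hs)

theorem norm_pw (hs : 0 < s) (x : PW k hs) : ‖x‖ = ‖x.ofAbs‖ ^ s := rfl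

noncomputable instance nnf (hs : 0 < s) : NontriviallyNormedField (PW k hs) :=
  { WithAbs.normedField (av k hs) with
    non_trivial := by
      obtain ⟨x, hx⟩ := NormedField.exists_one_lt_norm k
      exact ⟨WithAbs.toAbs _ x, Real.one_lt_rpow hx hs⟩ }

instance ultra (hs : 0 < s) : IsUltrametricDist (PW k hs) :=
  IsUltrametricDist.isUltrametricDist_of_forall_norm_add_le_max_norm fun x y => by
    rw [norm_pw, norm_pw, norm_pw]
    have h : ‖x.ofAbs + y.ofAbs‖ ≤ max ‖x.ofAbs‖ ‖y.ofAbs‖ :=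
      IsUltrametricDist.norm_add_le_max x.ofAbs y.ofAbs
    change ‖x.ofAbs + y.ofAbs‖ ^ s ≤ _
    rcases le_total ‖x.ofAbs‖ ‖y.ofAbs‖ with hxy | hxy
    · rw [max_eq_right hxy] at h
      exact (Real.rpow_le_rpow (norm_nonneg _) h hs.le).trans (le_max_right _ _)
    · rw [max_eq_left hxy] at h
      exact (Real.rpow_le_rpow (norm_nonneg _) h hs.le).trans (le_max_left _ _)

/-- the isomorphism -/
noncomputable def ew (k : Type) [NontriviallyNormedField k] [IsUltrametricDist k] {s : ℝ}
    (hs : 0 < s) : k ≃+* PW k hs := (WithAbs.equiv (av k hs)).symm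

theorem norm_ew (hs : 0 < s) (x : k) : ‖ew k hs x‖ = ‖x‖ ^ s := rfl

theorem norm_ew_symm (hs : 0 < s) (x : PW k hs) : ‖(ew k hs).symm x‖ = ‖x‖ ^ s⁻¹ := by
  have h := norm_ew hs ((ew k hs).symm x)
  rw [(ew k hs).apply_symm_apply] at h
  rw [h, ← Real.rpow_mul (norm_nonneg _), mul_inv_cancel₀ hs.ne', Real.rpow_one]

theorem continuous_ew (hs : 0 < s) : Continuous (ew k hs) := by
  rw [continuous_iff_continuousAt]
  intro a
  rw [ContinuousAt, tendsto_iff_norm_sub_tendsto_zero]
  have h : (fun x => ‖ew k hs x - ew k hs a‖) = fun x => ‖x - a‖ ^ s :=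
    funext fun x => by rw [← map_sub, norm_ew]
  rw [h]
  have h1 : Tendsto (fun x => ‖x - a‖) (𝓝 a) (𝓝 0) := tendsto_iff_norm_sub_tendsto_zero.1 tendsto_id
  have h2 := h1.rpow_const (p := s) (Or.inr hs.le)
  rwa [Real.zero_rpow hs.ne'] at h2

theorem continuous_ew_symm (hs : 0 < s) : Continuous (ew k hs).symm := by
  rw [continuous_iff_continuousAt]
  intro a
  rw [ContinuousAt, tendsto_iff_norm_sub_tendsto_zero]
  have h : (fun x => ‖(ew k hs).symm x - (ew k hs).symm a‖) = fun x => ‖x - a‖ ^ s⁻¹ :=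
    funext fun x => by rw [← map_sub, norm_ew_symm]
  rw [h]
  have h1 : Tendsto (fun x => ‖x - a‖) (𝓝 a) (𝓝 0) := tendsto_iff_norm_sub_tendsto_zero.1 tendsto_id
  have h2 := h1.rpow_const (p := s⁻¹) (Or.inr (inv_nonneg.2 hs.le))
  rwa [Real.zero_rpow (inv_ne_zero hs.ne')] at h2

/-- the additive homeomorphism -/
noncomputable def hw (k : Type) [NontriviallyNormedField k] [IsUltrametricDist k] {s : ℝ}
    (hs : 0 < s) : k ≃ₜ+ PW k hs :=
  { (ew k hs).toAddEquiv with
    continuous_toFun := continuous_ew hs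
    continuous_invFun := continuous_ew_symm hs }

instance proper [ProperSpace k] (hs : 0 < s) : ProperSpace (PW k hs) := by
  refine ProperSpace.of_isCompact_closedBall_of_le 0 fun x r hr => ?_
  have h : Metric.closedBall x r ⊆
      ew k hs '' Metric.closedBall ((ew k hs).symm x) (r ^ s⁻¹) := by
    intro y hy
    refine ⟨(ew k hs).symm y, ?_, (ew k hs).apply_symm_apply y⟩
    rw [Metric.mem_closedBall, dist_eq_norm, ← map_sub, norm_ew_symm]
    rw [Metric.mem_closedBall, dist_eq_norm] at hy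
    exact Real.rpow_le_rpow (norm_nonneg _) hy (inv_nonneg.2 hs.le)
  exact ((isCompact_closedBall _ _).image (continuous_ew hs)).of_isClosed_subset
    Metric.isClosed_closedBall h

end av

/-- the modulus is invariant under isomorphisms of topological fields -/
theorem md_map {k k' : Type} [NontriviallyNormedField k] [ProperSpace k]
    [NontriviallyNormedField k'] [ProperSpace k'] (e : k ≃+* k') (he : Continuous e)
    (he' : Continuous e.symm) (w : kˣ) (w' : k'ˣ) (hww : (w' : k') = e w) : md w' = md w := by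
  borelize k
  borelize k'
  obtain ⟨μ, hμ⟩ : ∃ μ : Measure k, μ = Measure.addHaar := ⟨_, rfl⟩
  haveI : μ.IsAddHaarMeasure := by rw [hμ]; infer_instance
  obtain ⟨f, hf⟩ : ∃ f : k ≃ₜ+ k', ∀ x, f x = e x :=
    ⟨{ e.toAddEquiv with continuous_toFun := he, continuous_invFun := he' }, fun _ => rfl⟩
  haveI : (μ.map f).IsAddHaarMeasure := f.isAddHaarMeasure_map μ
  have hfc : Continuous f := f.continuous_toFun
  obtain ⟨S, hS⟩ : ∃ S : Set k', S = Metric.closedBall 0 1 := ⟨_, rfl⟩
  have hSm : MeasurableSet S := by rw [hS]; exact Metric.isClosed_closedBall.measurableSet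
  have hwS : MeasurableSet (w' • S) := by
    have h1 : IsClosed (w' • S) := by
      rw [hS]
      exact Metric.isClosed_closedBall.smul w'
    exact h1.measurableSet
  have hpos : 0 < (μ.map f) S := by rw [hS]; exact Metric.measure_closedBall_pos _ 0 one_pos
  have hfin : (μ.map f) S ≠ ∞ := by
    rw [hS]; exact (isCompact_closedBall (0 : k') 1).measure_ne_top
  have h1 := measure_smul (μ.map f) w' S
  have h2 : f ⁻¹' (w' • S) = w • (f ⁻¹' S) := by
    ext x
    rw [mem_preimage, mem_smul_set_iff_inv_smul_mem, mem_smul_set_iff_inv_smul_mem, mem_preimage]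
    have h3 : w'⁻¹ • f x = f (w⁻¹ • x) := by
      rw [hf, hf, Units.smul_def, Units.smul_def, smul_eq_mul, smul_eq_mul, map_mul]
      congr 1
      rw [Units.val_inv_eq_inv_val, Units.val_inv_eq_inv_val, hww, map_inv₀]
    rw [h3]
  rw [Measure.map_apply hfc.measurable hwS, Measure.map_apply hfc.measurable hSm, h2,
    measure_smul μ w] at h1
  rw [Measure.map_apply hfc.measurable hSm] at hpos hfin
  have h4 : ENNReal.ofReal (md w) = ENNReal.ofReal (md w') :=
    (ENNReal.mul_left_inj hpos.ne' hfin).1 h1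
  exact ((ENNReal.ofReal_eq_ofReal_iff (md_pos w).le (md_pos w').le).1 h4).symm

/-- **[U3].** Every nonarchimedean local field is isomorphic, as a topological field, to one whose
norm satisfies `mod w ≤ ‖w‖` for some `w` with `‖w‖ < 1` (in fact with equality). -/
theorem exists_norm (k : Type) [NontriviallyNormedField k] [ProperSpace k]
    [IsUltrametricDist k] :
    ∃ (k' : Type) (_ : NontriviallyNormedField k') (_ : ProperSpace k')
      (_ : IsUltrametricDist k') (e : k ≃+* k') (w : k'ˣ), Continuous e ∧ Continuous e.symm ∧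
      ‖(w : k')‖ < 1 ∧ md w = ‖(w : k')‖ := by
  obtain ⟨x, hx⟩ := NormedField.exists_one_lt_norm k
  have hx0 : x⁻¹ ≠ 0 := by
    intro h
    rw [inv_eq_zero] at h
    rw [h, norm_zero] at hx
    linarith
  obtain ⟨w, hw⟩ : ∃ w : kˣ, w = Units.mk0 x⁻¹ hx0 := ⟨_, rfl⟩
  have hw1 : ‖(w : k)‖ < 1 := by
    rw [hw, Units.val_mk0, norm_inv]
    exact inv_lt_one_of_one_lt₀ hx
  have hw0 : 0 < ‖(w : k)‖ := norm_pos_iff.2 w.ne_zero
  have hm1 := md_lt_one hw1
  have hm0 := md_pos w
  have l1 : Real.log (md w) < 0 := Real.log_neg hm0 hm1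
  have l2 : Real.log ‖(w : k)‖ < 0 := Real.log_neg hw0 hw1
  obtain ⟨s, hs⟩ : ∃ s, s = Real.log (md w) / Real.log ‖(w : k)‖ := ⟨_, rfl⟩
  have hs0 : 0 < s := by rw [hs]; exact div_pos_of_neg_of_neg l1 l2
  have key : ‖(w : k)‖ ^ s = md w := by
    rw [Real.rpow_def_of_pos hw0, hs, mul_div_cancel₀ _ l2.ne, Real.exp_log hm0]
  refine ⟨PW k hs0, nnf hs0, proper hs0, ultra hs0, ew k hs0,
    Units.map (ew k hs0 : k →* PW k hs0) w, continuous_ew hs0, continuous_ew_symm hs0, ?_, ?_⟩
  · rw [Units.coe_map]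
    change ‖ew k hs0 w‖ < 1
    rw [norm_ew, key]
    exact hm1
  · rw [md_map (ew k hs0) (continuous_ew hs0) (continuous_ew_symm hs0) w _ rfl]
    rw [Units.coe_map]
    change md w = ‖ew k hs0 w‖
    rw [norm_ew, key]

end Vale.Agent.P092.H534.Nrm
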