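import Vale.Agent.P092.H534.Nrm
import Vale.Agent.P092.H515.LatSl

/-!
P092 (helper534), [U3]: lattices of `SL_n(k)` under the change of the norm of `k`.
-/

set_option linter.all false

open MeasureTheory Filter Topology Set

namespace Vale.Agent.P092.H534.Nrm

open Vale.Agent.P092.H368.SN (md)
open Matrix (SpecialLinearGroup)

variable {k k' : Type} [NontriviallyNormedField k] [NontriviallyNormedField k']

/-- `SL_n` of an isomorphism of fields -/
def slE (n : ℕ) (e : k ≃+* k') : SpecialLinearGroup (Fin n) k ≃* SpecialLinearGroup (Fin n) k' where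
  toFun := SpecialLinearGroup.map (e : k →+* k')
  invFun := SpecialLinearGroup.map (e.symm : k' →+* k)
  left_inv g := by
    apply Subtype.ext
    ext i j
    exact e.symm_apply_apply (g.1 i j)
  right_inv g := by
    apply Subtype.ext
    ext i j
    exact e.apply_symm_apply (g.1 i j)
  map_mul' g h := map_mul _ g h

theorem slE_apply (n : ℕ) (e : k ≃+* k') (g : SpecialLinearGroup (Fin n) k) (i j : Fin n) :
    (slE n e g).1 i j = e (g.1 i j) := rfl

theorem slE_symm (n : ℕ) (e : k ≃+* k') : (slE n e).symm = slE n e.symm := rfl

theorem continuous_slE (n : ℕ) {e : k ≃+* k'} (he : Continuous e) : Continuous (slE n e) := by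
  refine Continuous.subtype_mk ?_ _
  refine continuous_matrix fun i j => ?_
  exact he.comp ((continuous_subtype_val (p := fun A : Matrix (Fin n) (Fin n) k =>
    A.det = 1)).matrix_elem i j)

/-- **[U3], lattices.** -/
theorem lattice_slE {n : ℕ} [IsTopologicalGroup (SpecialLinearGroup (Fin n) k)]
    [LocallyCompactSpace (SpecialLinearGroup (Fin n) k)]
    [SecondCountableTopology (SpecialLinearGroup (Fin n) k)]
    [T2Space (SpecialLinearGroup (Fin n) k)]
    [IsTopologicalGroup (SpecialLinearGroup (Fin n) k')]
    [LocallyCompactSpace (SpecialLinearGroup (Fin n) k')]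
    [SecondCountableTopology (SpecialLinearGroup (Fin n) k')]
    [T2Space (SpecialLinearGroup (Fin n) k')] {e : k ≃+* k'} (he : Continuous e)
    (he' : Continuous e.symm) {Γ : Subgroup (SpecialLinearGroup (Fin n) k)}
    (h : H515.IsLattice Γ) :
    H515.IsLattice (Γ.map (slE n e : SpecialLinearGroup (Fin n) k →*
      SpecialLinearGroup (Fin n) k')) :=
  H515.IsLattice.map_equiv (slE n e) (continuous_slE n he)
    (by rw [slE_symm]; exact continuous_slE n he') h

end Vale.Agent.P092.H534.Nrm
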