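import Vale.Agent.P092.H776.Row
import Vale.Agent.P092.H534.NWK

/-!
P092 (helper534), one simple factor: `SysF` of the picture `L²(SL_3(k)/Λ; ℓ²((Γ × Q) × ι))` for
the powers of `bw w`, with target `q : Γ →* SL_3(k')` over any local field `k'`
(`H776.Row.sysF_pt`, `sysF_ln` for `k' = ℝ`), in the gaps `ga`, `gb`.
-/

set_option linter.all false

open scoped InnerProductSpace ENNReal
open Matrix Filter Topology MeasureTheory ContinuousLinearMap

namespace Vale.Agent.P092.H534.GK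

open Vale.Agent.P092.H160 Vale.Agent.P092.H432
open Vale.Agent.P092.H790 (CData Ri baseL)
open Vale.Agent.P092.H21 (msL mL)
open Vale.Agent.P092.H357 (BdL2)
open Vale.Agent.P092.H761 (CovFam)
open Vale.Agent.P092.H859.CL
open Vale.Agent.P092.H538 (fst)
open Vale.Agent.P092.H85 (cdat)
open Vale.Agent.P092.H933 (LocK)
open Vale.Agent.P092.SD (G3 bw tau nm)
open Vale.Agent.P092.H776.Row (sysF_zinv sysF_line)

section inst

variable {k : Type} [NontriviallyNormedField k] [ProperSpace k]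
  [MeasurableSpace (G3 k)] [BorelSpace (G3 k)]
  (Λ : Subgroup (G3 k)) [DiscreteTopology Λ] [MeasurableSpace (G3 k ⧸ Λ)] [BorelSpace (G3 k ⧸ Λ)]
  (ν : Measure (G3 k ⧸ Λ)) [IsProbabilityMeasure ν]
  (hν : ∀ g : G3 k, ν.map (fun x => g • x) = ν)
  {Γ Q ι : Type} [Group Γ] [Countable Γ] [Group Q] [Countable Q] [Fintype ι] {t : ℝ}
  {R : Λ → (Ell2 ((Γ × Q) × ι) →L[ℂ] Ell2 ((Γ × Q) × ι))}
  {E0 : Set Λ → (Ell2 ((Γ × Q) × ι) →L[ℂ] Ell2 ((Γ × Q) × ι))}
  {k' : Type} [NontriviallyNormedField k'] [ProperSpace k']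

/-- **`SysF`** for the powers of `bw w`, target over any local field. -/
theorem sysF_bwK [LocallyCompactSpace (G3 k)] [SecondCountableTopology (G3 k)] [Countable Λ]
    (hk : LocK k') (hR : ARep t R) (hE : CovFam R E0)
    (hq : ∀ A (q : Q), E0 A * lx ((1 : Γ), q) = lx ((1 : Γ), q) * E0 A)
    {w : kˣ} (hw : ‖(w : k)‖ < 1) (q : Γ →* G3 k')
    (disc : ∀ C : ℝ, {γ : Γ | nm (q γ) ≤ C}.Finite) :
    SysF (fst (baseL (cdat ν hν).μ (Γ × Q) ι)).mp (Ri (cdat ν hν) R)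
      (BdL2 (cdat ν hν).μ Γ Q ι) (msL (cdat ν hν) R) (Subgroup.zpowers (bw w : G3 k))
      (fun γ => ga (q γ)) (fun γ => gb (q γ)) where
  fn := H21.fn_base _
  sys :=
    { prj := H21.prj_mL (cdat ν hν)
      rep := H21.rep_ri (cdat ν hν) hR
      dense := H21.dense_of_total (B := fst (baseL (cdat ν hν).μ (Γ × Q) ι))
        fun s a ha i => H357.bdl2_ep s a ha i
      norm := fun ξ hξ => H357.bdl2_norm hξ
      map := fun v ξ hξ => H357.bdl2_map (cdat ν hν) hR v hξ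
      sep := fun u η hη ζ hζ F G P T h1 h2 =>
        H357.sep_set (cdat ν hν) hR u hη hζ F G P T h1 h2
      nrm := fun ε hε => nrm_bwK Λ ν hν hk hR hE hq hw q disc hε
      nrv := fun ξ hξ ε hε => nrv_bwK Λ ν hν hk hR hE hq hw q disc hξ hε }
  mpb := fun F hF ξ hξ => H357.bdl2_mp hF hξ

/-- points: `SysF` in the letters of `limAt_eng`, target over any local field -/
theorem sysF_ptK [LocallyCompactSpace (G3 k)] [SecondCountableTopology (G3 k)] [Countable Λ]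
    (hk : LocK k') (hR : ARep t R) (hE : CovFam R E0)
    (hq : ∀ A (q : Q), E0 A * lx ((1 : Γ), q) = lx ((1 : Γ), q) * E0 A)
    {w : kˣ} (hw : ‖(w : k)‖ < 1) (q : Γ →* G3 k')
    (disc : ∀ C : ℝ, {γ : Γ | nm (q γ) ≤ C}.Finite) :
    SysF (fst (baseL (cdat ν hν).μ (Γ × Q) ι)).mp (Ri (cdat ν hν) R)
      (BdL2 (cdat ν hν).μ Γ Q ι) (msL (cdat ν hν) R) (Subgroup.zpowers (bw w : G3 k)⁻¹)
      (fun γ => ga (q γ)) (fun γ => gb (q γ)) :=
  sysF_zinv (sysF_bwK Λ ν hν hk hR hE hq hw q disc)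

/-- lines: `SysF` in the letters of `limAt_eng`, target over any local field -/
theorem sysF_lnK [LocallyCompactSpace (G3 k)] [SecondCountableTopology (G3 k)] [Countable Λ]
    (hk : LocK k') (hR : ARep t R) (hE : CovFam R E0)
    (hq : ∀ A (q : Q), E0 A * lx ((1 : Γ), q) = lx ((1 : Γ), q) * E0 A)
    {w : kˣ} (hw : ‖(w : k)‖ < 1) (q : Γ →* G3 k')
    (disc : ∀ C : ℝ, {γ : Γ | nm (q γ) ≤ C}.Finite) :
    SysF (fst (baseL (cdat ν hν).μ (Γ × Q) ι)).mp (fun v => Ri (cdat ν hν) R (tau k v))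
      (BdL2 (cdat ν hν).μ Γ Q ι) (fun v => msL (cdat ν hν) R (tau k v))
      (Subgroup.zpowers (bw w : G3 k)⁻¹)
      (fun γ => gb (q γ)) (fun γ => ga (q γ)) :=
  sysF_line (sysF_bwK Λ ν hν hk hR hE hq hw q disc)

end inst

end Vale.Agent.P092.H534.GK
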